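import Vale.Agent.P027.Defs

/-! P027 Gad: divisibility and approximate order from equations between heights.
Useful: `gad_mk`: for coprime naturals A, B > 0 the rational A / B has num A and den B (Rat.num_div_eq_of_coprime,
Rat.den_div_eq_of_coprime or Rat.div_def / Rat.divInt); for z >= 1, Ht z = |num z|; for 0 <= z <= 1, Ht z = den z.
`nm_iff`: w = b / q in lowest terms, b /= 0; z = b^2 / (b^2 + q^2) in lowest terms, Ht z = b^2 + q^2.
(<-) c >= 1 with Ht c = b^2 + q^2 is (b^2+q^2)/e, so z c = b^2 / e and num (z c) divides b^2 (Rat.num_dvd or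
Rat.divInt_num_dvd), Ht (z c) = |num (z c)|.  (->) b^2 = Ht p * e, c = (b^2+q^2)/e (coprime as e | b^2), z c = Ht p.
`Cp_le`: w = 1/z, |num w| = den z <= num z = Ht q, Ht p ^ 2 | den z ^ 2.  `Cp_of`: z = Ht q / Ht p, w = Ht p / Ht q.
`Rq_of`: u = Ht q, v = Ht q' (`Ht_nat`), B = Ht q * Ht q' >= 4 Ht p >= 4; Nat.exists_prime_lt_and_le_two_mul (B / 2) gives a prime c
with B/2 < c <= 2 (B/2) <= B; Ht p < c so they are coprime; c does not divide B (else c = B since 2c > B, so B = 2 (B/2) is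
an even prime >= 4). -/

namespace Vale.Agent.P027

theorem gad_mk {A B : ℕ} (hB : 0 < B) (h : A.Coprime B) :
    ((A : ℚ) / B).num = A ∧ ((A : ℚ) / B).den = B := by
  have h1 := Rat.num_div_eq_of_coprime (a := A) (b := B) (by exact_mod_cast hB) (by simpa using h)
  have h2 := Rat.den_div_eq_of_coprime (a := A) (b := B) (by exact_mod_cast hB) (by simpa using h)
  simp only [Int.cast_natCast] at h1 h2
  exact ⟨h1, by exact_mod_cast h2⟩

theorem gad_ht {A B : ℕ} (hB : 0 < B) (h : A.Coprime B) : Ht ((A : ℚ) / B) = max A B := by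
  rw [Ht, (gad_mk hB h).1, (gad_mk hB h).2, Int.natAbs_natCast]

theorem gad_rep {z : ℚ} (h : 0 ≤ z) : z * z.den = z.num.natAbs := by
  rw [Nat.cast_natAbs, abs_of_nonneg (Rat.num_nonneg.2 h), Rat.mul_den_eq_num]

theorem Ht_of_one_le {z : ℚ} (h : 1 ≤ z) : Ht z = z.num.natAbs := by
  refine max_eq_left (Nat.cast_le (α := ℚ).1 ?_)
  rw [← gad_rep (zero_le_one.trans h)]
  exact le_mul_of_one_le_left (Nat.cast_nonneg _) h

theorem Ht_of_le_one {z : ℚ} (h0 : 0 ≤ z) (h : z ≤ 1) : Ht z = z.den := by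
  refine max_eq_right (Nat.cast_le (α := ℚ).1 ?_)
  rw [← gad_rep h0]
  exact mul_le_of_le_one_left (Nat.cast_nonneg _) h

theorem gad_dvd (A : ℕ) {B : ℕ} (hB : 0 < B) : ((A : ℚ) / B).num.natAbs ∣ A := by
  have := Rat.num_dvd (A : ℤ) (b := B) (by exact_mod_cast hB.ne')
  rw [Rat.divInt_eq_div, Int.cast_natCast, Int.cast_natCast] at this
  exact Int.natAbs_dvd_natAbs.2 this

theorem gad_sq (w : ℚ) : w ^ 2 * (w.den : ℚ) ^ 2 = (w.num.natAbs : ℚ) ^ 2 := by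
  rw [Nat.cast_natAbs, Int.cast_abs, sq_abs, ← mul_pow, Rat.mul_den_eq_num]

theorem nm_iff (p w : ℚ) : Ht p ∣ w.num.natAbs ^ 2 ↔ w = 0 ∨ ∃ z c : ℚ,
    z * (1 + w ^ 2) = w ^ 2 ∧ 1 ≤ c ∧ Ht c = Ht z ∧ 1 ≤ z * c ∧ Ht (z * c) = Ht p := by
  have h1 := gad_sq w
  have h2 : (w.num.natAbs ^ 2).Coprime (w.num.natAbs ^ 2 + w.den ^ 2) :=
    Nat.coprime_self_add_right.2 (Nat.Coprime.pow 2 2 w.reduced)
  have h3 : 0 < w.den ^ 2 := pow_pos w.den_pos 2
  rw [← Nat.cast_pow, ← Nat.cast_pow] at h1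
  have h0 : w ≠ 0 → 0 < w.num.natAbs ^ 2 := fun h =>
    pow_pos (Int.natAbs_pos.2 (Rat.num_ne_zero.2 h)) 2
  have h0' : w = 0 → w.num.natAbs ^ 2 = 0 := fun h => by simp [h]
  generalize w.num.natAbs ^ 2 = A at *
  generalize w.den ^ 2 = B at *
  have h4 : 0 < A + B := by omega
  have hB : (0 : ℚ) < B := by exact_mod_cast h3
  have h5 : (0 : ℚ) < (A + B : ℕ) := by exact_mod_cast h4
  have h6 : Ht ((A : ℚ) / (A + B : ℕ)) = A + B := by
    rw [gad_ht h4 h2, max_eq_right (Nat.le_add_right _ _)]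
  have h7 : (A : ℚ) / (A + B : ℕ) * (1 + w ^ 2) = w ^ 2 := by
    rw [div_mul_eq_mul_div, div_eq_iff h5.ne', Nat.cast_add, ← h1]
    ring
  constructor
  · rintro ⟨e, he⟩
    refine or_iff_not_imp_left.2 fun hw => ?_
    have h8 := h0 hw
    have h9 : 0 < e := Nat.pos_of_ne_zero fun h => by simp [he, h] at h8
    have h10 : e ≤ A + B := (Nat.le_of_dvd h8 (Dvd.intro_left _ he.symm)).trans (by omega)
    have he' : (0 : ℚ) < e := by exact_mod_cast h9
    have h11 : (A : ℚ) / (A + B : ℕ) * ((A + B : ℕ) / e) = Ht p := by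
      rw [div_mul_div_cancel₀ h5.ne', he, Nat.cast_mul, mul_div_cancel_right₀ _ he'.ne']
    refine ⟨_, (A + B : ℕ) / e, h7, (one_le_div he').2 (by exact_mod_cast h10), ?_, ?_, ?_⟩
    · rw [h6, gad_ht h9 (h2.symm.coprime_dvd_right (Dvd.intro_left _ he.symm)), max_eq_left h10]
    · rw [h11]
      exact_mod_cast Ht_pos p
    · rw [h11, Ht_nat (Ht_pos p)]
  · rintro (h | ⟨z, c, h8, h9, h10, h11, h12⟩)
    · rw [h0' h]
      exact dvd_zero _
    obtain rfl : z = (A : ℚ) / (A + B : ℕ) :=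
      mul_right_cancel₀ (by positivity) (h8.trans h7.symm)
    rw [h6, Ht_of_one_le h9] at h10
    have h13 := gad_rep (zero_le_one.trans h9)
    have h14 : (A : ℚ) / (A + B : ℕ) * c = A / c.den := by
      rw [← h10, ← h13]
      have : c ≠ 0 := by positivity
      field_simp
    rw [← h12, Ht_of_one_le h11, h14]
    exact gad_dvd A c.den_pos

theorem Cp_le {p q : ℚ} (h : Cp p q) : Ht p ≤ Ht q := by
  obtain ⟨z, w, h1, h2, h3, h4⟩ := h
  have h5 : w ≠ 0 := left_ne_zero_of_mul_eq_one h3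
  rw [Ht_pow, Nat.pow_dvd_pow_iff two_ne_zero] at h4
  refine (Nat.le_of_dvd (Int.natAbs_pos.2 (Rat.num_ne_zero.2 h5)) h4).trans ?_
  have h6 := gad_rep (zero_le_one.trans h1)
  have h7 : 0 < z.num.natAbs := Int.natAbs_pos.2 (Rat.num_ne_zero.2 (by positivity))
  have h8 : w = (z.den : ℚ) / z.num.natAbs := by
    rw [eq_div_iff (by exact_mod_cast h7.ne'), ← h6, ← mul_assoc, h3, one_mul]
  rw [h8, (gad_mk h7 z.reduced.symm).1, ← h2]
  exact le_max_right _ _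

theorem Cp_of {p q : ℚ} (h : Ht p ≤ Ht q) (hc : (Ht p).Coprime (Ht q)) : Cp p q := by
  have h1 : (0 : ℚ) < Ht p := by exact_mod_cast Ht_pos p
  have h2 : (0 : ℚ) < Ht q := by exact_mod_cast Ht_pos q
  refine ⟨(Ht q : ℚ) / Ht p, (Ht p : ℚ) / Ht q, (one_le_div h1).2 (by exact_mod_cast h), ?_, ?_, ?_⟩
  · rw [gad_ht (Ht_pos p) hc.symm, max_eq_left h]
  · field_simp
  · rw [Ht_pow, (gad_mk (Ht_pos q) hc).1, Int.natAbs_natCast]

theorem Rq_le {p q q' : ℚ} (h : Rq p q q') : Ht p ≤ Ht q * Ht q' := by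
  obtain ⟨u, v, c, h1, h2, h3, h4⟩ := h
  rw [← h1, ← h2]
  exact (Cp_le h3).trans ((Cp_le h4).trans (Ht_mul_le u v))

theorem Rq_of {p q q' : ℚ} (h : 4 * Ht p ≤ Ht q * Ht q') : Rq p q q' := by
  have h1 := Ht_pos p
  have h2 : Ht ((Ht q : ℚ) * Ht q') = Ht q * Ht q' := by
    rw [← Nat.cast_mul, Ht_nat (by omega)]
  obtain ⟨c, hc, h3, h4⟩ := Nat.exists_prime_lt_and_le_two_mul (Ht q * Ht q' / 2) (by omega)
  have h5 := Ht_nat hc.pos
  refine ⟨Ht q, Ht q', c, Ht_nat (Ht_pos q), Ht_nat (Ht_pos q'), Cp_of (by omega) ?_,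
    Cp_of (by omega) ?_⟩
  · rw [h5]
    exact ((Nat.Prime.coprime_iff_not_dvd hc).2 (Nat.not_dvd_of_pos_of_lt h1 (by omega))).symm
  · rw [h5, h2]
    generalize Ht q * Ht q' = B at *
    refine (Nat.Prime.coprime_iff_not_dvd hc).2 ?_
    rintro ⟨k, rfl⟩
    have h6 := hc.eq_two_or_odd
    rcases k with _ | _ | k
    · omega
    · omega
    · rw [mul_add, mul_add] at h3
      omega

theorem Psi_mono {r r' : ℚ → ℚ → ℚ → Prop} (h : ∀ p q q', r p q q' → r' p q q') {N : ℕ} {a : ℚ}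
    (H : Psi r N a) : Psi r' N a := by
  obtain ⟨x, y, x', y', i, s, u, v, h1, h2, h3, h4, h5, h6, h7, h8, h9, h10, h11, h12, h13⟩ := H
  exact ⟨x, y, x', y', i, s, u, v, h1, h2, h3, h _ _ _ h4, h _ _ _ h5, h6, h7, h8, h9, h10, h11,
    h _ _ _ h12, h _ _ _ h13⟩

end Vale.Agent.P027
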