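import Vale.Agent.P027.Defs

/-! P027 Can: canonical height (abstract).
`can_q`: D = C + |h 0|; |h (R+R) - 4 h R| <= D (S = R).  u n = h (2^n R) / 4^n has |u (n+1) - u n| <= D / 4^(n+1), so it is
Cauchy (cauchySeq_of_le_geometric) with limit q R (choose), dist_le_of_le_geometric_of_tendsto0 gives |h R - q R| <= C';
the parallelogram law for (2^n R, 2^n S) divided by 4^n passes to the limit (error C / 4^n -> 0; tendsto_nhds_unique).
`can_zsmul`: q 0 = 0 (R = S = 0), q (-R) = q R (R = 0), two-step induction q((n+2)R) = 2 q((n+1)R) + 2 q R - q(nR).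
`can_abs`: q (R + t) = q R for torsion t (n t = 0, n > 0: n^2 q (R+t) = q (nR) = n^2 q R), q t = 0.  If g = 0 take eta = 0.
Otherwise fix R0 with g R0 /= 0, eta = q R0 / (g R0)^2; g R0 * R - g R * R0 is in the kernel of g, so
(g R0)^2 q R = (g R)^2 q R0. -/

namespace Vale.Agent.P027

theorem can_q {A : Type} [AddCommGroup A] (h : A → ℝ) (C : ℝ)
    (H : ∀ R S, |h (R + S) + h (R - S) - 2 * (h R + h S)| ≤ C) :
    ∃ (q : A → ℝ) (C' : ℝ), (∀ R, |h R - q R| ≤ C') ∧
      ∀ R S, q (R + S) + q (R - S) = 2 * (q R + q S) := by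
  obtain ⟨D, hD⟩ : ∃ D : ℝ, ∀ R, |h (R + R) - 4 * h R| ≤ D := by
    refine ⟨C + |h 0|, fun R => ?_⟩
    have h1 := abs_le.1 (H R R)
    rw [sub_self] at h1
    rw [abs_le]
    constructor <;> linarith [le_abs_self (h 0), neg_abs_le (h 0), h1.1, h1.2]
  obtain ⟨u, hu⟩ : ∃ u : A → ℕ → ℝ, u = fun R n => h (2 ^ n • R) / 4 ^ n := ⟨_, rfl⟩
  have hd : ∀ R n, dist (u R n) (u R (n + 1)) ≤ D / 4 * (1 / 4) ^ n := by
    intro R n
    have h4 : (0 : ℝ) < 4 ^ n := by positivity
    have e : u R (n + 1) - u R n = (h (2 ^ n • R + 2 ^ n • R) - 4 * h (2 ^ n • R)) / (4 * 4 ^ n) := by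
      simp only [hu]
      rw [pow_succ 2 n, mul_nsmul', two_nsmul, nsmul_add, pow_succ]
      field_simp
    rw [dist_comm, Real.dist_eq, e, abs_div, abs_of_pos (by positivity : (0 : ℝ) < 4 * 4 ^ n),
      one_div, inv_pow, ← div_eq_mul_inv, div_div]
    exact div_le_div_of_nonneg_right (hD _) (by positivity)
  have hc : ∀ R, ∃ a, Filter.Tendsto (u R) Filter.atTop (nhds a) := fun R =>
    cauchySeq_tendsto_of_complete (cauchySeq_of_le_geometric (1 / 4) (D / 4) (by norm_num) (hd R))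
  choose q hq using hc
  refine ⟨q, D / 4 / (1 - 1 / 4), fun R => ?_, fun R S => ?_⟩
  · have h1 := dist_le_of_le_geometric_of_tendsto₀ (1 / 4) (D / 4) (by norm_num) (hd R) (hq R)
    rw [Real.dist_eq] at h1
    simpa only [hu, pow_zero, one_smul, div_one] using h1
  · have t1 := ((hq (R + S)).add (hq (R - S))).sub (((hq R).add (hq S)).const_mul 2)
    have t2 : Filter.Tendsto (fun n : ℕ => C * (1 / 4 : ℝ) ^ n) Filter.atTop (nhds 0) := by
      have := (tendsto_pow_atTop_nhds_zero_of_lt_one (r := (1 / 4 : ℝ)) (by norm_num)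
        (by norm_num)).const_mul C
      rwa [mul_zero] at this
    have t3 : Filter.Tendsto (fun n => u (R + S) n + u (R - S) n - 2 * (u R n + u S n))
        Filter.atTop (nhds 0) := by
      refine squeeze_zero_norm (fun n => ?_) t2
      have h4 : (0 : ℝ) < 4 ^ n := by positivity
      have e : u (R + S) n + u (R - S) n - 2 * (u R n + u S n) =
          (h (2 ^ n • R + 2 ^ n • S) + h (2 ^ n • R - 2 ^ n • S) -
            2 * (h (2 ^ n • R) + h (2 ^ n • S))) / 4 ^ n := by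
        simp only [hu, nsmul_add, nsmul_sub]
        field_simp
      rw [Real.norm_eq_abs, e, abs_div, abs_of_pos h4, one_div, inv_pow, ← div_eq_mul_inv]
      exact div_le_div_of_nonneg_right (H _ _) h4.le
    exact sub_eq_zero.1 (tendsto_nhds_unique t1 t3)

theorem can_zsmul {A : Type} [AddCommGroup A] (q : A → ℝ)
    (H : ∀ R S, q (R + S) + q (R - S) = 2 * (q R + q S)) (k : ℤ) (R : A) :
    q (k • R) = (k : ℝ) ^ 2 * q R := by
  have h0 : q 0 = 0 := by
    have := H 0 0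
    rw [add_zero, sub_zero] at this
    linarith
  have hneg : ∀ S, q (-S) = q S := fun S => by
    have := H 0 S
    rw [zero_add, zero_sub, h0] at this
    linarith
  have hn : ∀ n : ℕ, q (n • R) = (n : ℝ) ^ 2 * q R ∧
      q ((n + 1) • R) = ((n : ℝ) + 1) ^ 2 * q R := by
    intro n
    induction n with
    | zero => simp [h0]
    | succ n ih =>
      refine ⟨by rw [ih.2, Nat.cast_succ], ?_⟩
      have h1 := H ((n + 1) • R) R
      rw [← succ_nsmul, ih.2, succ_nsmul R n, add_sub_cancel_right, ih.1] at h1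
      push_cast
      linarith
  obtain ⟨n, rfl | rfl⟩ := k.eq_nat_or_neg
  · rw [natCast_zsmul, (hn n).1, Int.cast_natCast]
  · rw [neg_zsmul, hneg, natCast_zsmul, (hn n).1, Int.cast_neg, Int.cast_natCast, neg_sq]

theorem can_abs {A : Type} [AddCommGroup A] (h : A → ℝ) (C : ℝ)
    (H : ∀ R S, |h (R + S) + h (R - S) - 2 * (h R + h S)| ≤ C) (g : A →+ ℤ)
    (hg : ∀ R, g R = 0 → IsOfFinAddOrder R) :
    ∃ η C' : ℝ, ∀ R, |h R - η * (g R : ℝ) ^ 2| ≤ C' := by
  obtain ⟨q, C', h1, h2⟩ := can_q h C H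
  have ht : ∀ R t, g t = 0 → q (R + t) = q R := by
    intro R t ht
    obtain ⟨n, hn, hnt⟩ := isOfFinAddOrder_iff_nsmul_eq_zero.1 (hg t ht)
    have a1 := can_zsmul q h2 n (R + t)
    rw [zsmul_add, natCast_zsmul t, hnt, add_zero, can_zsmul q h2] at a1
    have a2 : ((n : ℤ) : ℝ) ^ 2 ≠ 0 := pow_ne_zero 2 (by exact_mod_cast hn.ne')
    exact (mul_left_cancel₀ a2 a1).symm
  have h0 : q 0 = 0 := by simpa using can_zsmul q h2 0 0
  by_cases hz : ∀ R, g R = 0
  · refine ⟨0, C', fun R => ?_⟩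
    have a1 := ht 0 R (hz R)
    rw [zero_add, h0] at a1
    have a2 := h1 R
    rwa [a1, ← zero_mul ((g R : ℝ) ^ 2)] at a2
  · obtain ⟨R₀, hR₀⟩ := not_forall.1 hz
    refine ⟨q R₀ / (g R₀ : ℝ) ^ 2, C', fun R => ?_⟩
    have a1 := ht (g R • R₀) (g R₀ • R - g R • R₀) (by
      rw [map_sub, map_zsmul, map_zsmul, smul_eq_mul, smul_eq_mul, mul_comm, sub_self])
    rw [add_sub_cancel, can_zsmul q h2, can_zsmul q h2] at a1
    have a2 : (g R₀ : ℝ) ≠ 0 := Int.cast_ne_zero.2 hR₀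
    have a3 : q R₀ / (g R₀ : ℝ) ^ 2 * (g R : ℝ) ^ 2 = q R := by
      rw [div_mul_eq_mul_div, div_eq_iff (pow_ne_zero 2 a2)]
      linarith
    rw [a3]
    exact h1 R

end Vale.Agent.P027
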