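import Vale.Agent.P027.Defs

/-! P027 FGa: points that are p-adically close to the origin.  N = padicNorm p
(padicNorm.mul, .div, .neg, .nonarchimedean, .add_eq_max_of_ne, .of_int, .of_nat, .nonneg, .zero_of_padicNorm_eq_zero,
IsAbsoluteValue.abv_pow; N 2 <= 1).
`fg_unit`: N w < 1 gives N (1 + w) = 1.
`fg_basic`: N (2x) <= N x < N x ^ 3 so N y ^ 2 = N x ^ 3; the rest is algebra in the positive rationals
(N (1/y) = N (x/y)^3 because (N y)^2 = (N x)^3).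
`fg_small`: rho^2 < 1 gives 1 < N x; N(x/y)^2 = 1 / N x <= rho^2; pow_le_pow_left0, abs_le_abs / pow_le_pow_iff_left0.
`fg_conv`: t = x/y, s = 1/y satisfy s (1 + 2ts) = t^3, N (2ts) < 1, so N s = N t ^ 3, s /= 0, x = t / s,
N x * N t ^ 2 = 1 and N t ^ 2 <= rho^2.
`fg_alg`: y1 y2 y3 = n (n^2 - 2 l^2), sum x_i y_j y_k = -4 l n, sum x_i x_j y_k = l n^2 - 2n (linear_combination of the three
symmetric relations).  With al = -l/n, be = 1/n, t_i = x_i / y_i, c = 1 - 2 al^2 = (n^2 - 2 l^2)/n^2 this gives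
(B) c (t1+t2+t3) = 4 al be and (C) c (t1t2+t1t3+t2t3) = -(al + 2 be^2); 1/y_i = al t_i + be; (A) follows from
(B) * (t1+t2) - (C) after substituting 1/y_i = al t_i + be. -/

namespace Vale.Agent.P027

variable {p : ℕ} [Fact p.Prime] {ρ : ℚ}

theorem FGa_pow (x : ℚ) (k : ℕ) : padicNorm p (x ^ k) = padicNorm p x ^ k :=
  IsAbsoluteValue.abv_pow (padicNorm p) x k

theorem FGa_two (x : ℚ) : padicNorm p (2 * x) ≤ padicNorm p x := by
  rw [padicNorm.mul]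
  exact mul_le_of_le_one_left (padicNorm.nonneg x) (by exact_mod_cast padicNorm.of_nat (p := p) 2)

theorem fg_unit {w : ℚ} (h : padicNorm p w < 1) : padicNorm p (1 + w) = 1 := by
  rw [padicNorm.add_eq_max_of_ne (by rw [padicNorm.one]; exact h.ne'), padicNorm.one,
    max_eq_left h.le]

theorem fg_basic {x y : ℚ} (e : y ^ 2 = x ^ 3 - 2 * x) (hx : 1 < padicNorm p x) :
    y ≠ 0 ∧ x ≠ 0 ∧ padicNorm p (x / y) ^ 2 * padicNorm p x = 1 ∧
      padicNorm p (1 / y) = padicNorm p (x / y) ^ 3 ∧ padicNorm p y ^ 2 = padicNorm p x ^ 3 := by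
  have h1 : padicNorm p (-(2 * x)) < padicNorm p (x ^ 3) := by
    rw [padicNorm.neg, FGa_pow]
    exact (FGa_two x).trans_lt (by nlinarith [mul_pos (sub_pos.2 hx) (sub_pos.2 hx)])
  have h2 : padicNorm p y ^ 2 = padicNorm p x ^ 3 := by
    rw [← FGa_pow, e, sub_eq_add_neg, padicNorm.add_eq_max_of_ne h1.ne', max_eq_left h1.le, FGa_pow]
  have hx0 : 0 < padicNorm p x := one_pos.trans hx
  have hy0 : padicNorm p y ≠ 0 := by
    intro h
    rw [h] at h2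
    exact (pow_pos hx0 3).ne (by rw [← h2]; norm_num)
  refine ⟨fun h => hy0 (by rw [h, padicNorm.zero]), fun h => hx0.ne' (by rw [h, padicNorm.zero]),
    ?_, ?_, h2⟩
  · rw [padicNorm.div, div_pow, h2]
    field_simp
  · rw [padicNorm.div, padicNorm.div, padicNorm.one, div_pow, ← h2]
    field_simp

theorem fg_small (h0 : 0 < ρ) (h1 : ρ < 1) {x y : ℚ} (e : y ^ 2 = x ^ 3 - 2 * x)
    (hx : 1 ≤ padicNorm p x * ρ ^ 2) :
    y ≠ 0 ∧ 1 < padicNorm p x ∧ padicNorm p (x / y) ≤ ρ ∧ padicNorm p (1 / y) ≤ ρ ^ 3 := by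
  have h2 : ρ ^ 2 < 1 := pow_lt_one₀ h0.le h1 two_ne_zero
  have h3 : 1 < padicNorm p x := by
    by_contra h
    nlinarith [padicNorm.nonneg (p := p) x, not_lt.1 h, sq_nonneg ρ]
  obtain ⟨a, -, c, d, -⟩ := fg_basic e h3
  have h4 : padicNorm p (x / y) ≤ ρ := by
    refine (pow_le_pow_iff_left₀ (padicNorm.nonneg _) h0.le two_ne_zero).1 ?_
    refine le_of_mul_le_mul_right ?_ (one_pos.trans h3)
    rw [c, mul_comm]
    exact hx
  exact ⟨a, h3, h4, d ▸ pow_le_pow_left₀ (padicNorm.nonneg _) h4 3⟩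

theorem fg_conv (h0 : 0 < ρ) (h1 : ρ < 1) {x y : ℚ} (e : y ^ 2 = x ^ 3 - 2 * x) (hy : y ≠ 0)
    (ht : padicNorm p (x / y) ≤ ρ) (hs : padicNorm p (1 / y) ≤ ρ ^ 3) :
    1 ≤ padicNorm p x * ρ ^ 2 := by
  have h2 : 1 / y * (1 + 2 * (x / y * (1 / y))) = (x / y) ^ 3 := by
    field_simp
    linear_combination e
  have h3 : padicNorm p (2 * (x / y * (1 / y))) < 1 := by
    refine (FGa_two _).trans_lt ?_
    rw [padicNorm.mul]
    exact mul_lt_one_of_nonneg_of_lt_one_left (padicNorm.nonneg _) (ht.trans_lt h1)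
      (hs.trans (pow_le_one₀ h0.le h1.le))
  have h4 := congrArg (padicNorm p) h2
  rw [padicNorm.mul, fg_unit h3, mul_one, FGa_pow] at h4
  have h5 : padicNorm p (1 / y) ≠ 0 := padicNorm.nonzero (one_div_ne_zero hy)
  have h6 : padicNorm p (x / y) = padicNorm p x * padicNorm p (1 / y) := by
    rw [← padicNorm.mul, mul_one_div]
  have h7 : padicNorm p (x / y) ≠ 0 := by
    intro h
    rw [h] at h4
    exact h5 (by rw [h4]; norm_num)
  have h8 : padicNorm p x * padicNorm p (x / y) ^ 2 = 1 := by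
    refine mul_right_cancel₀ h7 ?_
    rw [h4] at h6
    linear_combination -h6
  rw [← h8]
  exact mul_le_mul_of_nonneg_left (pow_le_pow_left₀ (padicNorm.nonneg _) ht 2) (padicNorm.nonneg _)

theorem fg_alg {x₁ x₂ x₃ y₁ y₂ y₃ l n : ℚ} (hn : n ≠ 0) (h₁ : y₁ ≠ 0) (h₂ : y₂ ≠ 0) (h₃ : y₃ ≠ 0)
    (e₁ : y₁ = l * x₁ + n) (e₂ : y₂ = l * x₂ + n) (e₃ : y₃ = l * x₃ + n)
    (s₁ : x₁ + x₂ + x₃ = l ^ 2) (s₂ : x₁ * x₂ + x₁ * x₃ + x₂ * x₃ = -2 - 2 * l * n)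
    (s₃ : x₁ * x₂ * x₃ = n ^ 2) :
    1 / y₁ = -l / n * (x₁ / y₁) + 1 / n ∧ 1 / y₃ = -l / n * (x₃ / y₃) + 1 / n ∧
    -l / n * (1 + 2 * (x₁ / y₁) * (1 / y₁ + 1 / y₂)) =
      (x₁ / y₁) ^ 2 + x₁ / y₁ * (x₂ / y₂) + (x₂ / y₂) ^ 2 - 2 * (1 / y₂) ^ 2 ∧
    (1 - 2 * (-l / n) ^ 2) * (x₁ / y₁ + x₂ / y₂ + x₃ / y₃) = 4 * (-l / n) * (1 / n) := by
  have a1 : 1 / y₁ = -l / n * (x₁ / y₁) + 1 / n := by
    field_simp
    linear_combination -e₁
  have a2 : 1 / y₂ = -l / n * (x₂ / y₂) + 1 / n := by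
    field_simp
    linear_combination -e₂
  have a3 : 1 / y₃ = -l / n * (x₃ / y₃) + 1 / n := by
    field_simp
    linear_combination -e₃
  have b1 : y₁ * y₂ * y₃ = n * (n ^ 2 - 2 * l ^ 2) := by
    rw [e₁, e₂, e₃]
    linear_combination l ^ 3 * s₃ + l ^ 2 * n * s₂ + l * n ^ 2 * s₁
  have b2 : x₁ * y₂ * y₃ + x₂ * y₁ * y₃ + x₃ * y₁ * y₂ = -4 * l * n := by
    rw [e₁, e₂, e₃]
    linear_combination 3 * l ^ 2 * s₃ + 2 * l * n * s₂ + n ^ 2 * s₁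
  have b3 : x₁ * x₂ * y₃ + x₁ * x₃ * y₂ + x₂ * x₃ * y₁ = l * n ^ 2 - 2 * n := by
    rw [e₁, e₂, e₃]
    linear_combination 3 * l * s₃ + n * s₂
  have hB : (1 - 2 * (-l / n) ^ 2) * (x₁ / y₁ + x₂ / y₂ + x₃ / y₃) = 4 * (-l / n) * (1 / n) := by
    field_simp
    linear_combination (n ^ 2 - 2 * l ^ 2) * b2 + 4 * l * b1
  have hC : (1 - 2 * (-l / n) ^ 2) * (x₁ / y₁ * (x₂ / y₂) + x₁ / y₁ * (x₃ / y₃) +
      x₂ / y₂ * (x₃ / y₃)) = -(-l / n + 2 * (1 / n) ^ 2) := by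
    field_simp
    linear_combination (n ^ 2 - 2 * l ^ 2) * b3 - (l * n - 2) * b1
  refine ⟨a1, a3, ?_, hB⟩
  rw [a1, a2]
  linear_combination hC - (x₁ / y₁ + x₂ / y₂) * hB

end Vale.Agent.P027
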