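import Vale.Agent.P027.Defs

/-! P027 Loc: divisibility of numerators and denominators through p-adic norms.
N = padicNorm p.  Facts: padicNorm.mul, padicNorm.div, padicNorm.of_int, padicNorm.int_eq_one_iff, nat_eq_one_iff,
nat_lt_one_iff, padicNorm.dvd_iff_norm_le, Rat.num_div_den, Rat.reduced (num and den coprime, so p divides at most one),
padicNorm.eq_zpow_of_nonzero, padicValRat.of_nat.  d divides m iff p^(v_p d) divides m for all primes p dividing d
(Nat.dvd_iff_prime_pow_dvd_dvd or Nat.factorization_prime_le_iff_dvd; m = 0 separately).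
`loc_int`: the integer case.  `loc_num`: N w = N num / N den; if p divides num then N den = 1; if N w <= N d < 1 then
N num < N den <= 1 so p divides num.  `loc_den`: apply the same argument to den: 1 <= N x * N d with N d < 1 forces
N den < N num <= 1, so p divides den, N num = 1.  `norm_le_den`: N x <= 1 / N den = p^(v_p den) <= den. -/

namespace Vale.Agent.P027

theorem loc_int {d : ℕ} (hd : d ≠ 0) (m : ℤ) :
    d ∣ m.natAbs ↔ ∀ p : ℕ, p.Prime → p ∣ d → padicNorm p m ≤ padicNorm p d := by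
  constructor
  · intro h p hp _
    have := Fact.mk hp
    obtain ⟨c, rfl⟩ := Int.natCast_dvd.2 h
    rw [Int.cast_mul, padicNorm.mul, Int.cast_natCast]
    exact mul_le_of_le_one_right (padicNorm.nonneg _) (padicNorm.of_int c)
  · intro h
    refine (Nat.dvd_iff_prime_pow_dvd_dvd _ _).2 fun p k hp hk => ?_
    have := Fact.mk hp
    rcases Nat.eq_zero_or_pos k with rfl | h0
    · simp
    · have h1 := padicNorm.dvd_iff_norm_le.1 (Int.natCast_dvd_natCast.2 hk)
      rw [Int.cast_natCast] at h1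
      exact Int.natCast_dvd.1 (padicNorm.dvd_iff_norm_le.2
        ((h p hp ((dvd_pow_self p h0.ne').trans hk)).trans h1))

theorem Loc_mul (p : ℕ) [Fact p.Prime] (x : ℚ) :
    padicNorm p x * padicNorm p x.den = padicNorm p x.num := by
  rw [← padicNorm.mul, Rat.mul_den_eq_num]

theorem Loc_yes {p : ℕ} [hp : Fact p.Prime] {x : ℚ} (h : p ∣ x.den) :
    padicNorm p x.num = 1 ∧ padicNorm p x * padicNorm p x.den = 1 ∧ 0 < padicNorm p x.den ∧
      padicNorm p x.den < 1 := by
  have h1 : padicNorm p x.num = 1 := (padicNorm.int_eq_one_iff _).2 fun h2 =>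
    hp.out.one_lt.ne' (Nat.eq_one_of_dvd_coprimes x.reduced (Int.natCast_dvd.1 h2) h)
  exact ⟨h1, (Loc_mul p x).trans h1, lt_of_le_of_ne (padicNorm.nonneg _)
    (padicNorm.nonzero (Nat.cast_ne_zero.2 x.den_nz)).symm, (padicNorm.nat_lt_one_iff _).2 h⟩

theorem Loc_no {p : ℕ} [Fact p.Prime] {x : ℚ} (h : ¬ p ∣ x.den) :
    padicNorm p x.den = 1 ∧ padicNorm p x = padicNorm p x.num := by
  have h1 := (padicNorm.nat_eq_one_iff _).2 h
  exact ⟨h1, by rw [← Loc_mul p x, h1, mul_one]⟩

theorem loc_num {d : ℕ} (hd : d ≠ 0) (w : ℚ) :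
    d ∣ w.num.natAbs ↔ ∀ p : ℕ, p.Prime → p ∣ d → padicNorm p w ≤ padicNorm p d := by
  rw [loc_int hd]
  refine forall_congr' fun p => forall_congr' fun hp => forall_congr' fun h => ?_
  have := Fact.mk hp
  have h0 := (padicNorm.nat_lt_one_iff (p := p) d).2 h
  by_cases h1 : p ∣ w.den
  · obtain ⟨h2, h3, h4, h5⟩ := Loc_yes h1
    refine iff_of_false (by rw [h2]; exact not_le.2 h0) fun h6 => ?_
    nlinarith [padicNorm.nonneg (p := p) w]
  · rw [(Loc_no h1).2]

theorem loc_den {d : ℕ} (hd : d ≠ 0) (x : ℚ) :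
    d ∣ x.den ↔ ∀ p : ℕ, p.Prime → p ∣ d → 1 ≤ padicNorm p x * padicNorm p d := by
  have h7 := loc_int hd (x.den : ℤ)
  rw [Int.natAbs_natCast, Int.cast_natCast] at h7
  rw [h7]
  refine forall_congr' fun p => forall_congr' fun hp => forall_congr' fun h => ?_
  have := Fact.mk hp
  have h0 := (padicNorm.nat_lt_one_iff (p := p) d).2 h
  have hx := padicNorm.nonneg (p := p) x
  by_cases h1 : p ∣ x.den
  · obtain ⟨h2, h3, h4, h5⟩ := Loc_yes h1
    have h6 : 0 < padicNorm p x := lt_of_le_of_ne hx fun h6 => by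
      rw [← h6, zero_mul] at h3
      exact zero_ne_one h3
    rw [← h3, mul_le_mul_iff_right₀ h6]
  · obtain ⟨h2, h3⟩ := Loc_no h1
    have h4 : padicNorm p x ≤ 1 := h3 ▸ padicNorm.of_int _
    refine iff_of_false (by rw [h2]; exact not_le.2 h0) fun h6 => ?_
    nlinarith [padicNorm.nonneg (p := p) d]

theorem norm_den {p : ℕ} (hp : p.Prime) {x : ℚ} (h : p ∣ x.den) :
    padicNorm p x * padicNorm p x.den = 1 ∧ 0 < padicNorm p x.den ∧ padicNorm p x.den < 1 := by
  have := Fact.mk hp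
  exact (Loc_yes h).2

theorem norm_le_den {p : ℕ} (hp : p.Prime) (x : ℚ) : padicNorm p x ≤ x.den := by
  have := Fact.mk hp
  by_cases h1 : p ∣ x.den
  · obtain ⟨-, h3, -, -⟩ := Loc_yes h1
    have h0 : (p : ℚ) ≠ 0 := Nat.cast_ne_zero.2 hp.ne_zero
    rw [padicNorm.eq_zpow_of_nonzero (Nat.cast_ne_zero.2 x.den_nz), padicValRat.of_nat, zpow_neg,
      zpow_natCast, mul_inv_eq_one₀ (pow_ne_zero _ h0)] at h3
    rw [h3]
    exact_mod_cast Nat.le_of_dvd x.den_pos pow_padicValNat_dvd
  · rw [(Loc_no h1).2]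
    exact (padicNorm.of_int _).trans (by exact_mod_cast x.den_pos)

theorem dvd_num_sub {d : ℕ} (hd : d ≠ 0) {a b : ℚ} (ha : d ∣ a.num.natAbs)
    (hb : d ∣ b.num.natAbs) : d ∣ (a - b).num.natAbs := by
  rw [loc_num hd] at ha hb ⊢
  intro p hp h
  have := Fact.mk hp
  exact padicNorm.sub.trans (max_le (ha p hp h) (hb p hp h))

end Vale.Agent.P027
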