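import Vale.Agent.P027.Rank
import Vale.Agent.P027.Can
import Vale.Agent.P027.FGa
import Vale.Agent.P027.Loc

/-! P027 Inf: P has infinite order; the structure theorem.
`inf_step`: `fg_basic` (p = 2) gives y /= 0 and N y ^ 2 = N x ^ 3; `At.dbl`; N (x^2+2) = N x ^ 2
(padicNorm.add_eq_max_of_ne), N 2 = 1/2 (padicNorm.padicNorm_p_of_prime).
`inf_unb`: P + P has x = 9/4 (`At.dbl` with `at_P`), N (9/4) = 4; by induction 2^(n+1) P has N x = 4^(n+1);
`norm_le_den`, den <= Ht, `At.hh`; 4^n >= n is unbounded (Real.lt_log_iff_exp_lt, exists_nat_gt).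
`str_ex`: `rank_G`, `par`, `can_abs`.  If eta <= 0 or g P = 0 then hh (n P) <= C for all n (map_nsmul), against `inf_unb`. -/

namespace Vale.Agent.P027

theorem inf_pow (x : ℚ) (n : ℕ) : padicNorm 2 (x ^ n) = padicNorm 2 x ^ n :=
  IsAbsoluteValue.abv_pow (padicNorm 2) x n

theorem inf_two : padicNorm 2 2 = 2⁻¹ := by
  simpa using padicNorm.padicNorm_p_of_prime (p := 2)

theorem inf_step {R : G} {x y : ℚ} (h : At R x y) (hx : 1 < padicNorm 2 x) :
    ∃ x' y', At (R + R) x' y' ∧ padicNorm 2 x' = 4 * padicNorm 2 x := by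
  obtain ⟨hy, -, -, -, e⟩ := fg_basic h.eq hx
  obtain ⟨y', h'⟩ := h.dbl hy
  refine ⟨_, y', h', ?_⟩
  have h1 : padicNorm 2 2 < padicNorm 2 (x ^ 2) := by
    rw [inf_pow, inf_two]
    nlinarith
  have h0 : padicNorm 2 x ≠ 0 := by positivity
  rw [inf_pow, padicNorm.div, padicNorm.add_eq_max_of_ne h1.ne', max_eq_left h1.le, padicNorm.mul,
    inf_pow, inf_two, div_pow, mul_pow, e]
  field_simp
  norm_num

theorem inf_unb (B : ℝ) : ∃ n : ℕ, B < hh (n • P) := by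
  have key : ∀ n : ℕ, ∃ x y, At (2 ^ (n + 1) • P) x y ∧ padicNorm 2 x = 4 ^ (n + 1) := by
    intro n
    induction n with
    | zero =>
      obtain ⟨y, h⟩ := at_P.dbl one_ne_zero
      refine ⟨_, y, by rwa [zero_add, pow_one, two_nsmul], ?_⟩
      have h3 : padicNorm 2 ((3 : ℕ) : ℚ) = 1 := (padicNorm.nat_eq_one_iff 3).2 (by norm_num)
      rw [show ((-1 : ℚ) ^ 2 + 2) / (2 * 1) = (3 : ℕ) / 2 by norm_num, inf_pow, padicNorm.div, h3,
        inf_two]
      norm_num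
    | succ n ih =>
      obtain ⟨x, y, h, e⟩ := ih
      obtain ⟨x', y', h', e'⟩ := inf_step h (by rw [e]; exact one_lt_pow₀ (by norm_num) n.succ_ne_zero)
      exact ⟨x', y', by rwa [pow_succ, mul_nsmul, two_nsmul], by rw [e', e]; ring⟩
  obtain ⟨n, hn⟩ := exists_nat_gt (Real.exp B)
  obtain ⟨x, y, h, e⟩ := key n
  refine ⟨_, h.hh ▸ (Real.lt_log_iff_exp_lt (Nat.cast_pos.2 (Ht_pos x))).2
    (hn.trans_le (Nat.cast_le.2 ?_))⟩
  have h1 := norm_le_den Nat.prime_two x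
  rw [e] at h1
  have h2 : 4 ^ (n + 1) ≤ x.den := by exact_mod_cast h1
  exact ((Nat.le_succ n).trans (Nat.lt_pow_self (by norm_num)).le).trans
    (h2.trans (le_max_right _ _))

theorem str_ex : ∃ (g : G →+ ℤ) (η C : ℝ), Str g η C := by
  obtain ⟨g, hg⟩ := rank_G
  obtain ⟨C₀, hC⟩ := par
  obtain ⟨η, C, h⟩ := can_abs hh C₀ hC g hg
  obtain ⟨n, hn⟩ := inf_unb C
  have k := (abs_le.1 (h (n • P))).2
  refine ⟨g, η, C, not_le.1 fun h0 => ?_, fun h0 => ?_, h⟩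
  · linarith [mul_nonpos_of_nonpos_of_nonneg h0 (sq_nonneg (g (n • P) : ℝ))]
  · rw [map_nsmul, h0, smul_zero] at k
    simp at k
    linarith

end Vale.Agent.P027
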