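import Vale.Agent.P027.Defs

/-! P027 HDa: closure properties of IsP and HD (helper14 fills this file). -/

namespace Vale.Agent.P027

variable {ι κ : Type}

theorem IsP.proj (i : ι) : IsP fun a : ι → ℚ => a i := ⟨MvPolynomial.X i, fun a => by simp⟩

theorem IsP.int (z : ℤ) : IsP fun _ : ι → ℚ => (z : ℚ) := ⟨MvPolynomial.C z, fun a => by simp⟩

theorem IsP.nat (n : ℕ) : IsP fun _ : ι → ℚ => (n : ℚ) := by
  simpa using IsP.int (ι := ι) n

theorem IsP.zero : IsP fun _ : ι → ℚ => (0 : ℚ) := ⟨0, fun a => by simp⟩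

theorem IsP.one : IsP fun _ : ι → ℚ => (1 : ℚ) := ⟨1, fun a => by simp⟩

theorem IsP.two : IsP fun _ : ι → ℚ => (2 : ℚ) := by
  simpa using IsP.int (ι := ι) 2

theorem IsP.add {F G : (ι → ℚ) → ℚ} (hF : IsP F) (hG : IsP G) : IsP fun a => F a + G a := by
  obtain ⟨f, hf⟩ := hF
  obtain ⟨g, hg⟩ := hG
  exact ⟨f + g, fun a => by simp [hf, hg]⟩

theorem IsP.sub {F G : (ι → ℚ) → ℚ} (hF : IsP F) (hG : IsP G) : IsP fun a => F a - G a := by
  obtain ⟨f, hf⟩ := hF
  obtain ⟨g, hg⟩ := hG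
  exact ⟨f - g, fun a => by simp [hf, hg]⟩

theorem IsP.mul {F G : (ι → ℚ) → ℚ} (hF : IsP F) (hG : IsP G) : IsP fun a => F a * G a := by
  obtain ⟨f, hf⟩ := hF
  obtain ⟨g, hg⟩ := hG
  exact ⟨f * g, fun a => by simp [hf, hg]⟩

theorem IsP.pow {F : (ι → ℚ) → ℚ} (hF : IsP F) (n : ℕ) : IsP fun a => F a ^ n := by
  obtain ⟨f, hf⟩ := hF
  exact ⟨f ^ n, fun a => by simp [hf]⟩

theorem IsP.aeval (f : MvPolynomial ι ℤ) : IsP fun a : ι → ℚ => MvPolynomial.aeval a f :=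
  ⟨f, fun _ => rfl⟩

theorem IsP.comp {F : (ι → ℚ) → ℚ} (hF : IsP F) {φ : ι → (κ → ℚ) → ℚ} (hφ : ∀ i, IsP (φ i)) :
    IsP fun b => F fun i => φ i b := by
  obtain ⟨f, hf⟩ := hF
  choose g hg using hφ
  refine ⟨MvPolynomial.aeval g f, fun b => ?_⟩
  beta_reduce
  rw [hf, ← AlgHom.comp_apply, MvPolynomial.comp_aeval]
  simp only [hg]

theorem hda_sq {a b : ℚ} (h : a ^ 2 + b ^ 2 = 0) : a = 0 ∧ b = 0 := by
  constructor <;> nlinarith [sq_nonneg a, sq_nonneg b]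

theorem hda_four {q : ℚ} (h : 0 ≤ q) : ∃ a b c d : ℚ, q = a ^ 2 + b ^ 2 + c ^ 2 + d ^ 2 := by
  obtain ⟨a, b, c, d, e⟩ := Nat.sum_four_squares (q.num.natAbs * q.den)
  have hd : (q.den : ℚ) ≠ 0 := by exact_mod_cast q.den_nz
  have hn : ((q.num.natAbs : ℕ) : ℚ) = q * q.den := by
    rw [Rat.mul_den_eq_num, ← Int.cast_natCast, Int.natAbs_of_nonneg (Rat.num_nonneg.2 h)]
  have e' : (a : ℚ) ^ 2 + b ^ 2 + c ^ 2 + d ^ 2 = q * q.den * q.den := by
    rw [← hn]; exact_mod_cast e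
  refine ⟨a / q.den, b / q.den, c / q.den, d / q.den, ?_⟩
  field_simp
  linear_combination -e'

theorem hda_l {μ : Type} (a : ι → ℚ) (y : κ ⊕ μ → ℚ) :
    (fun i => Sum.elim a y (Sum.map id .inl i)) = Sum.elim a fun j => y (.inl j) := by
  funext s
  rcases s with s | s <;> rfl

theorem hda_r {μ : Type} (a : ι → ℚ) (y : κ ⊕ μ → ℚ) :
    (fun i => Sum.elim a y (Sum.map id .inr i)) = Sum.elim a fun j => y (.inr j) := by
  funext s
  rcases s with s | s <;> rfl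

theorem HD.of_iff {S S' : (ι → ℚ) → Prop} (h : HD S) (e : ∀ a, S' a ↔ S a) : HD S' := by
  obtain ⟨κ, i, F, L, hF, h⟩ := h
  exact ⟨κ, i, F, L, hF, fun a => (e a).trans (h a)⟩

theorem HD.eq {F G : (ι → ℚ) → ℚ} (hF : IsP F) (hG : IsP G) : HD fun a => F a = G a := by
  refine ⟨Empty, inferInstance, fun v => F (fun i => v (.inl i)) - G (fun i => v (.inl i)), [],
    (hF.comp fun i => IsP.proj _).sub (hG.comp fun i => IsP.proj _), fun a => ?_⟩
  simp [sub_eq_zero]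

theorem HD.ht {F G : (ι → ℚ) → ℚ} (hF : IsP F) (hG : IsP G) :
    HD fun a => Ht (F a) = Ht (G a) := by
  refine ⟨Bool, inferInstance, fun v => (v (.inr true) - F (fun i => v (.inl i))) ^ 2 +
    (v (.inr false) - G (fun i => v (.inl i))) ^ 2, [(true, false)],
    (((IsP.proj _).sub (hF.comp fun i => IsP.proj _)).pow 2).add
      (((IsP.proj _).sub (hG.comp fun i => IsP.proj _)).pow 2), fun a => ?_⟩
  simp only [Sum.elim_inl, Sum.elim_inr, List.mem_singleton, forall_eq]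
  constructor
  · intro h
    exact ⟨fun b => if b then F a else G a, by simp, by simpa using h⟩
  · rintro ⟨y, h1, h2⟩
    obtain ⟨e1, e2⟩ := hda_sq h1
    rw [← sub_eq_zero.1 e1, ← sub_eq_zero.1 e2]
    exact h2

theorem HD.le {F G : (ι → ℚ) → ℚ} (hF : IsP F) (hG : IsP G) : HD fun a => F a ≤ G a := by
  refine ⟨Fin 4, inferInstance, fun v => G (fun i => v (.inl i)) - F (fun i => v (.inl i)) -
    (v (.inr 0) ^ 2 + v (.inr 1) ^ 2 + v (.inr 2) ^ 2 + v (.inr 3) ^ 2), [],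
    ((hG.comp fun i => IsP.proj _).sub (hF.comp fun i => IsP.proj _)).sub
      (((((IsP.proj _).pow 2).add ((IsP.proj _).pow 2)).add ((IsP.proj _).pow 2)).add
        ((IsP.proj _).pow 2)), fun a => ?_⟩
  simp only [Sum.elim_inl, Sum.elim_inr, List.not_mem_nil, false_imp_iff, implies_true, and_true]
  constructor
  · intro h
    obtain ⟨b, c, d, e, he⟩ := hda_four (sub_nonneg.2 h)
    exact ⟨![b, c, d, e], by simp [he]⟩
  · rintro ⟨y, h⟩
    nlinarith [sq_nonneg (y 0), sq_nonneg (y 1), sq_nonneg (y 2), sq_nonneg (y 3)]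

theorem HD.and {S S' : (ι → ℚ) → Prop} (h : HD S) (h' : HD S') : HD fun a => S a ∧ S' a := by
  obtain ⟨κ, i, F, L, hF, h⟩ := h
  obtain ⟨κ', i', F', L', hF', h'⟩ := h'
  refine ⟨κ ⊕ κ', inferInstance, fun v => F (fun i => v (Sum.map id .inl i)) ^ 2 +
    F' (fun i => v (Sum.map id .inr i)) ^ 2,
    L.map (Prod.map .inl .inl) ++ L'.map (Prod.map .inr .inr),
    ((hF.comp fun i => IsP.proj _).pow 2).add ((hF'.comp fun i => IsP.proj _).pow 2), fun a => ?_⟩
  simp only [hda_l, hda_r, List.mem_append, List.mem_map, or_imp, forall_and,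
    forall_exists_index, and_imp, forall_apply_eq_imp_iff₂, Prod.map_fst, Prod.map_snd, h, h']
  constructor
  · rintro ⟨⟨y, h1, h2⟩, ⟨y', h1', h2'⟩⟩
    exact ⟨Sum.elim y y', by simp [h1, h1'], by simpa using h2, by simpa using h2'⟩
  · rintro ⟨y, h1, h2, h3⟩
    obtain ⟨e1, e2⟩ := hda_sq h1
    exact ⟨⟨_, e1, h2⟩, ⟨_, e2, h3⟩⟩

theorem HD.or {S S' : (ι → ℚ) → Prop} (h : HD S) (h' : HD S') : HD fun a => S a ∨ S' a := by
  obtain ⟨κ, i, F, L, hF, h⟩ := h
  obtain ⟨κ', i', F', L', hF', h'⟩ := h'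
  refine ⟨κ ⊕ κ', inferInstance, fun v => F (fun i => v (Sum.map id .inl i)) *
    F' (fun i => v (Sum.map id .inr i)),
    L.map (Prod.map .inl .inl) ++ L'.map (Prod.map .inr .inr),
    (hF.comp fun i => IsP.proj _).mul (hF'.comp fun i => IsP.proj _), fun a => ?_⟩
  simp only [hda_l, hda_r, List.mem_append, List.mem_map, or_imp, forall_and,
    forall_exists_index, and_imp, forall_apply_eq_imp_iff₂, Prod.map_fst, Prod.map_snd, h, h']
  constructor
  · rintro (⟨y, h1, h2⟩ | ⟨y', h1', h2'⟩)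
    · exact ⟨Sum.elim y 0, by simp [h1], by simpa using h2, by simp⟩
    · exact ⟨Sum.elim 0 y', by simp [h1'], by simp, by simpa using h2'⟩
  · rintro ⟨y, h1, h2, h3⟩
    rcases mul_eq_zero.1 h1 with e | e
    · exact Or.inl ⟨_, e, h2⟩
    · exact Or.inr ⟨_, e, h3⟩

theorem HD.comp {S : (ι → ℚ) → Prop} (h : HD S) {φ : ι → (κ → ℚ) → ℚ} (hφ : ∀ i, IsP (φ i)) :
    HD fun b => S fun i => φ i b := by
  obtain ⟨μ, i, F, L, hF, h⟩ := h
  refine ⟨μ, i, fun v => F (fun s => Sum.elim (fun i (v : κ ⊕ μ → ℚ) => φ i fun k => v (.inl k))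
    (fun j v => v (.inr j)) s v), L, hF.comp ?_, fun a => ?_⟩
  · rintro (s | s)
    · exact (hφ s).comp fun k => IsP.proj _
    · exact IsP.proj _
  · beta_reduce
    rw [h]
    refine exists_congr fun y => and_congr ?_ Iff.rfl
    have : (fun s => Sum.elim (fun i (v : κ ⊕ μ → ℚ) => φ i fun k => v (.inl k))
        (fun j v => v (.inr j)) s (Sum.elim a y)) = Sum.elim (fun i => φ i a) y := by
      funext s
      rcases s with s | s <;> rfl
    simp only [this]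

theorem HD.exN [Fintype κ] {S : (ι → ℚ) → (κ → ℚ) → Prop}
    (h : HD fun v : ι ⊕ κ → ℚ => S (fun i => v (.inl i)) fun j => v (.inr j)) :
    HD fun a => ∃ y, S a y := by
  obtain ⟨μ, i, F, L, hF, h⟩ := h
  refine ⟨κ ⊕ μ, inferInstance, fun v => F (fun s => v (Equiv.sumAssoc ι κ μ s)),
    L.map (Prod.map .inr .inr), hF.comp fun i => IsP.proj _, fun a => ?_⟩
  have e : ∀ y : κ ⊕ μ → ℚ, (fun s => Sum.elim a y (Equiv.sumAssoc ι κ μ s)) =
      Sum.elim (Sum.elim a fun j => y (.inl j)) fun j => y (.inr j) := by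
    intro y
    funext s
    rcases s with (s | s) | s <;> rfl
  simp only [e, List.mem_map, forall_exists_index, and_imp, forall_apply_eq_imp_iff₂,
    Prod.map_fst, Prod.map_snd]
  constructor
  · rintro ⟨y, hy⟩
    obtain ⟨z, h1, h2⟩ := (h (Sum.elim a y)).1 hy
    exact ⟨Sum.elim y z, h1, h2⟩
  · rintro ⟨y, h1, h2⟩
    exact ⟨_, (h (Sum.elim a fun j => y (.inl j))).2 ⟨_, h1, h2⟩⟩

theorem HD.ex {S : (ι → ℚ) → ℚ → Prop}
    (h : HD fun v : Option ι → ℚ => S (fun i => v (some i)) (v none)) :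
    HD fun a => ∃ x, S a x := by
  have h2 : HD fun v : ι ⊕ Unit → ℚ => S (fun i => v (.inl i)) (v (.inr ())) :=
    h.comp (φ := fun o (v : ι ⊕ Unit → ℚ) => v (o.elim (.inr ()) .inl)) fun o => IsP.proj _
  refine (HD.exN (S := fun a (y : Unit → ℚ) => S a (y ())) h2).of_iff fun a => ?_
  exact ⟨fun ⟨x, hx⟩ => ⟨fun _ => x, hx⟩, fun ⟨y, hy⟩ => ⟨_, hy⟩⟩

theorem HD.all [Fintype κ] {S : κ → (ι → ℚ) → Prop} (h : ∀ j, HD (S j)) :
    HD fun a => ∀ j, S j a := by
  classical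
  have : ∀ s : Finset κ, HD fun a => ∀ j ∈ s, S j a := by
    intro s
    induction s using Finset.induction_on with
    | empty => exact (HD.eq IsP.zero IsP.zero).of_iff fun a => by simp
    | insert j s _ ih => exact ((h j).and ih).of_iff fun a => by simp
  exact (this Finset.univ).of_iff fun a => by simp

end Vale.Agent.P027
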