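import Vale.Agent.P027.Glob

/-! P027 SoundA: divisibility of denominators forces a multiple.
Let d = x.den, choose N with log N > 4 C + 2 (C >= 0 from R = 0; N = ceil (exp (4C+2)) + 1).
(1) if Dv d R and g R = 0 then R = 0: otherwise R = (a, b), d <= a.den <= Ht a, log d <= hh R <= C.
(2) m = g Q, m' = g Q', r = gcd m m' = m u + m' v (Int.gcd_eq_gcd_ab), R0 = u Q + v Q' has Dv d (`glob_comb`; Dv d Q and
Dv d Q' by `At.uniq`), g R0 = r.  m = r i, m' = r i'; i R0 + (-1) Q has Dv d and g = 0, so Q = i R0, likewise Q' = i' R0.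
(3) R0 /= 0 (`At.ne`), R0 = (a, b), Ht x <= 2 d <= 2 Ht a (`egg_ht`), so hh Q <= log 2 + hh R0, i.e.
eta i^2 r^2 <= eta r^2 + 2C + log 2.  If i^2 >= 4 then 3 eta r^2 <= 2C + 1, and log d <= hh Q <= eta i^2 r^2 + C <= 4C + 2,
a contradiction.  i /= 0 as Q /= 0, so i = 1 or -1 and Q' = (i' i) Q. -/

namespace Vale.Agent.P027

theorem SoundA_low {d : ℕ} (hd : 0 < d) {R : G} (h : Dv d R) (h0 : R ≠ 0) :
    Real.log d ≤ hh R := by
  rcases at_or R with h1 | ⟨a, b, h1⟩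
  · exact absurd h1 h0
  · rw [h1.hh]
    have h2 : d ≤ a.den := Nat.le_of_dvd a.den_pos (h a b h1)
    have h3 : d ≤ Ht a := h2.trans (le_max_right _ _)
    exact Real.log_le_log (by exact_mod_cast hd) (by exact_mod_cast h3)

theorem SoundA_zero {g : G →+ ℤ} {η C : ℝ} (H : Str g η C) {d : ℕ} (hd : 0 < d)
    (hC : C < Real.log d) {R : G} (h : Dv d R) (hg : g R = 0) : R = 0 := by
  by_contra h0
  have h1 := SoundA_low hd h h0
  have h2 := (abs_le.1 (H.2.2 R)).2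
  rw [hg] at h2
  simp only [Int.cast_zero, ne_eq, OfNat.ofNat_ne_zero, not_false_eq_true, zero_pow, mul_zero,
    sub_zero] at h2
  linarith

theorem SoundA_eq {g : G →+ ℤ} {η C : ℝ} (H : Str g η C) {Q : G} {x y : ℚ} (hQ : At Q x y)
    (hC : C < Real.log x.den) {R S : G} (hR : Dv x.den R) (hS : Dv x.den S) (i : ℤ)
    (hg : g S = g R * i) : S = i • R := by
  have h1 := glob_comb hQ hR hS i (-1)
  have h2 := SoundA_zero H x.den_pos hC h1 (by
    rw [map_add, map_zsmul, map_zsmul, hg, smul_eq_mul, smul_eq_mul]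
    ring)
  rw [neg_one_zsmul, add_neg_eq_zero] at h2
  exact h2.symm

theorem sound_mul {g : G →+ ℤ} {η C : ℝ} (H : Str g η C) :
    ∃ N : ℕ, ∀ (Q Q' : G) (x y x' y' : ℚ), At Q x y → At Q' x' y' → x ≤ 0 → N ≤ x.den →
      x.den ∣ x'.den → ∃ k : ℤ, Q' = k • Q := by
  have hC : 0 ≤ C := (abs_nonneg _).trans (H.2.2 0)
  refine ⟨⌈Real.exp (4 * C + 2)⌉₊ + 1, fun Q Q' x y x' y' hQ hQ' hx hN hdv => ?_⟩
  have hd : (0 : ℝ) < x.den := by exact_mod_cast x.den_pos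
  have hlog : 4 * C + 2 < Real.log x.den := by
    rw [Real.lt_log_iff_exp_lt hd]
    have h1 : ((⌈Real.exp (4 * C + 2)⌉₊ + 1 : ℕ) : ℝ) ≤ x.den := by exact_mod_cast hN
    have h2 := Nat.le_ceil (Real.exp (4 * C + 2))
    push_cast at h1
    linarith
  have hC' : C < Real.log x.den := by linarith
  have DQ : Dv x.den Q := fun a b h => by rw [(hQ.uniq h).1]
  have DQ' : Dv x.den Q' := fun a b h => by rw [← (hQ'.uniq h).1]; exact hdv
  obtain ⟨R, hRd, hRg⟩ : ∃ R : G, Dv x.den R ∧ g R = (Int.gcd (g Q) (g Q') : ℤ) := by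
    refine ⟨_, glob_comb hQ DQ DQ' (Int.gcdA (g Q) (g Q')) (Int.gcdB (g Q) (g Q')), ?_⟩
    rw [map_add, map_zsmul, map_zsmul, smul_eq_mul, smul_eq_mul, Int.gcd_eq_gcd_ab]
    ring
  obtain ⟨i, hi⟩ : g R ∣ g Q := by rw [hRg]; exact Int.gcd_dvd_left _ _
  obtain ⟨i', hi'⟩ : g R ∣ g Q' := by rw [hRg]; exact Int.gcd_dvd_right _ _
  have e1 : Q = i • R := SoundA_eq H hQ hC' hRd DQ i hi
  have e2 : Q' = i' • R := SoundA_eq H hQ hC' hRd DQ' i' hi'
  have hR0 : R ≠ 0 := fun h => hQ.ne (by rw [e1, h]; exact zsmul_zero i)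
  have hi0 : i ≠ 0 := fun h => hQ.ne (by rw [e1, h]; exact zero_zsmul R)
  have hlow := SoundA_low x.den_pos hRd hR0
  have hup : hh Q ≤ 1 + Real.log x.den := by
    rw [hQ.hh]
    have h1 : (Ht x : ℝ) ≤ 2 * x.den := by exact_mod_cast (egg_ht hQ.eq hx).2
    have h2 : (0 : ℝ) < Ht x := by exact_mod_cast Ht_pos x
    have h3 := Real.log_le_log h2 h1
    rw [Real.log_mul two_ne_zero hd.ne'] at h3
    have h4 : Real.log 2 ≤ 1 := by
      have := Real.log_le_sub_one_of_pos (show (0 : ℝ) < 2 by norm_num)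
      linarith
    linarith
  have b1 := (abs_le.1 (H.2.2 Q)).1
  have b2 := (abs_le.1 (H.2.2 R)).2
  have hsq : i ^ 2 < 4 := by
    by_contra hc
    have h4 : (4 : ℝ) ≤ (i : ℝ) ^ 2 := by exact_mod_cast not_lt.1 hc
    have h5 : 0 ≤ η * (g R : ℝ) ^ 2 := mul_nonneg H.1.le (sq_nonneg _)
    have h6 : η * (g Q : ℝ) ^ 2 = η * (g R : ℝ) ^ 2 * (i : ℝ) ^ 2 := by
      rw [hi]
      push_cast
      ring
    have h7 := mul_le_mul_of_nonneg_left h4 h5
    linarith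
  have hii : i * i = 1 := by
    have h1 : -2 < i := by nlinarith
    have h2 : i < 2 := by nlinarith
    interval_cases i
    · rfl
    · exact absurd rfl hi0
    · rfl
  refine ⟨i' * i, ?_⟩
  rw [e2, e1, smul_smul, mul_assoc, hii, mul_one]

end Vale.Agent.P027
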