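import Vale.Agent.P027.Glob

/-! P027 SoundB: the size of the multiplier.
m = g Q, ga = g P, |ga| >= 1, d = x.den.  Taking logs (`At.hh`, `Ht_pow`, `Ht_pos`): hh (kQ +- P) <= hh (kQ) + 3 hh Q, so
eta (km +- ga)^2 - C <= eta (km)^2 + C + 3 eta m^2 + 3C; one of the signs gives 2 |k| |m| <= 3 m^2 + 5C/eta.
`size_big`: there is M with 2 (1 + 2 t + 5C/eta)^2 < exp (eta t^2 - C) for all real t >= M, M >= 1
(exp u >= u^2/2 via Real.pow_div_factorial_le_exp or Real.add_pow_le_pow_mul_pow..., or Filter.Tendsto / isLittleO).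
Choose N > exp (eta M^2 + C).  Then log N <= log d <= hh Q <= eta m^2 + C gives |m| >= M >= 1, |k| <= 2|m| + 5C/eta,
and exp (eta m^2 - C) <= Ht x <= 2 d (`egg_ht`). -/

namespace Vale.Agent.P027

theorem size_big {η C : ℝ} (hη : 0 < η) (hC : 0 ≤ C) :
    ∃ M : ℝ, 1 ≤ M ∧ ∀ t : ℝ, M ≤ t →
      2 * (1 + 2 * t + 5 * C / η) ^ 2 < Real.exp (η * t ^ 2 - C) := by
  have ha : 0 ≤ 5 * C / η := by positivity
  have hb : 0 < 17 / η := by positivity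
  refine ⟨1 + 5 * C / η + 17 / η, by linarith, fun t ht => ?_⟩
  have t1 : 1 ≤ t := by linarith
  have t2 : 5 * C / η ≤ t := by linarith
  have t3 : 17 / η ≤ t := by linarith
  rw [div_le_iff₀ hη] at t3
  have t4 : 5 * C ≤ t * η := (div_le_iff₀ hη).1 t2
  have t5 : t * η ≤ η * t ^ 2 := by nlinarith [mul_nonneg (mul_nonneg hη.le (zero_le_one.trans t1)) (sub_nonneg.2 t1)]
  have u1 : η * t ^ 2 / 2 ≤ η * t ^ 2 - C := by linarith
  have u0 : 0 ≤ η * t ^ 2 / 2 := by positivity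
  have e1 := Real.quadratic_le_exp_of_nonneg (u0.trans u1)
  have u2 : (η * t ^ 2 / 2) ^ 2 ≤ (η * t ^ 2 - C) ^ 2 := pow_le_pow_left₀ u0 u1 2
  have u3 : (1 + 2 * t + 5 * C / η) ^ 2 ≤ (4 * t) ^ 2 :=
    pow_le_pow_left₀ (by linarith) (by linarith) 2
  have u4 : (17 : ℝ) ^ 2 ≤ (t * η) ^ 2 := pow_le_pow_left₀ (by norm_num) t3 2
  have u5 : 17 ^ 2 * t ^ 2 ≤ (t * η) ^ 2 * t ^ 2 := mul_le_mul_of_nonneg_right u4 (sq_nonneg t)
  have u6 : 0 ≤ t ^ 2 := sq_nonneg t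
  nlinarith

lemma SoundB_log {a b c : ℚ} (h : Ht a ≤ Ht b * Ht (c ^ 3)) :
    Real.log (Ht a) ≤ Real.log (Ht b) + 3 * Real.log (Ht c) := by
  have ha : (0 : ℝ) < Ht a := by exact_mod_cast Ht_pos a
  have hb : (0 : ℝ) < Ht b := by exact_mod_cast Ht_pos b
  have hc : (0 : ℝ) < Ht c := by exact_mod_cast Ht_pos c
  rw [Ht_pow] at h
  have h1 : (Ht a : ℝ) ≤ Ht b * (Ht c : ℝ) ^ 3 := by exact_mod_cast h
  have h2 := Real.log_le_log ha h1
  rw [Real.log_mul hb.ne' (by positivity), Real.log_pow] at h2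
  exact_mod_cast h2

lemma SoundB_k {η C k m a : ℝ} (hη : 0 < η) (hC : 0 ≤ C) (ha : 1 ≤ |a|) (hm : 1 ≤ |m|)
    (h1 : η * (k * m + a) ^ 2 ≤ η * (k * m) ^ 2 + 3 * (η * m ^ 2) + 5 * C)
    (h2 : η * (k * m + -a) ^ 2 ≤ η * (k * m) ^ 2 + 3 * (η * m ^ 2) + 5 * C) :
    |k| ≤ 2 * |m| + 5 * C / η := by
  have e0 : 0 ≤ η * a ^ 2 := by positivity
  have e1 : |η * (2 * (k * m * a))| ≤ 3 * (η * m ^ 2) + 5 * C := by
    rw [abs_le]
    constructor <;> nlinarith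
  rw [abs_mul, abs_mul, abs_mul, abs_mul, abs_of_pos hη, abs_two, ← sq_abs m] at e1
  have e2 : |k| * |m| ≤ |k| * |m| * |a| := le_mul_of_one_le_right (by positivity) ha
  have e3 : η * (2 * (|k| * |m|)) ≤ η * (2 * (|k| * |m| * |a|)) :=
    mul_le_mul_of_nonneg_left (by linarith) hη.le
  have e4 : 5 * C ≤ 5 * C * |m| := le_mul_of_one_le_right (by positivity) hm
  have e5 : 0 ≤ η * |m| ^ 2 := by positivity
  have e6 : (η * |k|) * |m| ≤ (η * (2 * |m|) + 5 * C) * |m| := by nlinarith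
  have e7 := le_of_mul_le_mul_right e6 (lt_of_lt_of_le one_pos hm)
  rw [← sub_le_iff_le_add', le_div_iff₀ hη]
  linarith

theorem sound_size {g : G →+ ℤ} {η C : ℝ} (H : Str g η C) :
    ∃ N : ℕ, ∀ (Q : G) (k : ℤ) (x y x' y' xp yp xm ym : ℚ), At Q x y → x ≤ 0 → N ≤ x.den →
      At (k • Q) x' y' → At (k • Q + P) xp yp → At (k • Q + -P) xm ym →
      Ht xp ≤ Ht x' * Ht (x ^ 3) → Ht xm ≤ Ht x' * Ht (x ^ 3) → (1 + k.natAbs) ^ 2 < x.den := by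
  obtain ⟨hη, hP, hH⟩ := H
  have hC : 0 ≤ C := (abs_nonneg _).trans (hH 0)
  obtain ⟨M, hM1, hM⟩ := size_big hη hC
  obtain ⟨N, hN⟩ := exists_nat_gt (Real.exp (η * M ^ 2 + C))
  refine ⟨N, fun Q k x y x' y' xp yp xm ym hQ hx hd h' hp hm lp lm => ?_⟩
  have a0 := abs_le.1 (hH Q)
  have a1 := abs_le.1 (hH (k • Q))
  have a2 := abs_le.1 (hH (k • Q + P))
  have a3 := abs_le.1 (hH (k • Q + -P))
  rw [hQ.hh] at a0
  rw [h'.hh, map_zsmul, smul_eq_mul] at a1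
  rw [hp.hh, map_add, map_zsmul, smul_eq_mul] at a2
  rw [hm.hh, map_add, map_zsmul, smul_eq_mul, map_neg] at a3
  push_cast at a1 a2 a3
  have l1 := SoundB_log lp
  have l2 := SoundB_log lm
  have hx0 : (0 : ℝ) < Ht x := by exact_mod_cast Ht_pos x
  have d1 : (x.den : ℝ) ≤ Ht x := by exact_mod_cast le_max_right _ _
  have d2 : (N : ℝ) ≤ x.den := by exact_mod_cast hd
  have d3 : (Ht x : ℝ) ≤ 2 * x.den := by exact_mod_cast (egg_ht hQ.eq hx).2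
  have m1 : η * M ^ 2 + C < Real.log (Ht x) := by
    rw [Real.lt_log_iff_exp_lt hx0]
    linarith
  have m2 : M ^ 2 < (g Q : ℝ) ^ 2 := lt_of_mul_lt_mul_left (by linarith [a0.2]) hη.le
  have m3 : M ≤ |(g Q : ℝ)| := by
    rw [← sq_abs (g Q : ℝ)] at m2
    exact (lt_of_pow_lt_pow_left₀ 2 (abs_nonneg _) m2).le
  have p1 : 1 ≤ |(g P : ℝ)| := by exact_mod_cast Int.one_le_abs hP
  have k1 := SoundB_k (k := k) hη hC p1 (hM1.trans m3) (by linarith [a0.2, a1.2, a2.1])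
    (by linarith [a0.2, a1.2, a3.1])
  have k2 := hM _ m3
  rw [sq_abs] at k2
  have k3 : Real.exp (η * (g Q : ℝ) ^ 2 - C) ≤ Ht x := by
    rw [← Real.le_log_iff_exp_le hx0]
    linarith [a0.1]
  have k4 : (1 + |(k : ℝ)|) ^ 2 ≤ (1 + 2 * |(g Q : ℝ)| + 5 * C / η) ^ 2 :=
    pow_le_pow_left₀ (by positivity) (by linarith) 2
  have k5 : (1 + |(k : ℝ)|) ^ 2 < x.den := by linarith
  have k6 : ((k.natAbs : ℕ) : ℝ) = |(k : ℝ)| := by
    rw [Nat.cast_natAbs, Int.cast_abs]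
  rw [← k6] at k5
  exact_mod_cast k5

end Vale.Agent.P027
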