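import Vale.Agent.P027.SoundA
import Vale.Agent.P027.SoundB
import Vale.Agent.P027.Inf

/-! P027 Sound: the formula only defines integers.
`str_ex`, N0 = max of the two bounds and 2.  d = x.den = Ht (x+1) (`egg_ht`), `Ht_nat`, `Ht_one`, `Ht_pow`.
i = x'^-1 so |num i| = den x' (Rat.num_inv / Rat.den_inv_of_ne_zero / Rat.inv_natCast..), d^2 | (den x')^2 gives d | den x'
(Nat.pow_dvd_pow_iff).  `at_ex`, `sound_mul`: Q' = k Q.  x' /= -1 since 2 <= d | den x'.  `At.chord` with `at_P` and `at_P.neg`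
gives the points kQ + P, kQ + -P with x = u^2 - x' + 1, v^2 - x' + 1; `sound_size`: (1+|k|)^2 < d.  `glob_cong`, `dvd_num_sub`:
d | num ((a - s) - (k - s)) = num (a - k).  `sound_num`: |num (a - k)| <= Ht a (1 + |k|) (a - k = (num a - k den a)/den a and
den (a - k) = den a, Rat.sub_intCast_den).  Ht a ^ 2 <= d, so |num (a-k)| < d, num (a - k) = 0. -/

namespace Vale.Agent.P027

theorem sound_num (a : ℚ) (k : ℤ) : (a - k).num.natAbs ≤ Ht a * (1 + k.natAbs) := by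
  have e : ((a - k).num : ℚ) = (a.num - k * a.den : ℤ) := by
    rw [← Rat.mul_den_eq_num (a - k), Rat.sub_intCast_den]
    push_cast
    rw [sub_mul, Rat.mul_den_eq_num]
  have e2 : (a - k).num = a.num - k * a.den := by exact_mod_cast e
  rw [e2, mul_add, mul_one]
  refine (Int.natAbs_sub_le _ _).trans (add_le_add (le_max_left _ _) ?_)
  rw [Int.natAbs_mul, Int.natAbs_natCast, mul_comm]
  exact Nat.mul_le_mul_right _ (le_max_right _ _)

theorem sound : ∃ N₀ : ℕ, ∀ N, N₀ ≤ N → ∀ a : ℚ,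
    Psi (fun p q q' => Ht p ≤ Ht q * Ht q') N a → ∃ z : ℤ, a = z := by
  obtain ⟨g, η, C, H⟩ := str_ex
  obtain ⟨N₁, h₁⟩ := sound_mul H
  obtain ⟨N₂, h₂⟩ := sound_size H
  refine ⟨N₁ + N₂ + 2, fun N hN a h => ?_⟩
  obtain ⟨x, y, x', y', i, s, u, v, e, e', hx, hN', ha, hi, d1, hs, d2, hu, hv, r1, r2⟩ := h
  have hd := (egg_ht e hx).1
  rw [Ht_nat (by omega), hd, Ht_one, mul_one] at hN'
  rw [Ht_pow, hd, Ht_one, mul_one] at ha
  rw [Ht_pow, hd, Nat.pow_dvd_pow_iff two_ne_zero] at d1 d2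
  rw [← Rat.den_inv_of_ne_zero (left_ne_zero_of_mul_eq_one hi), inv_eq_of_mul_eq_one_right hi] at d1
  obtain ⟨Q, hQ⟩ := at_ex e
  obtain ⟨Q', hQ'⟩ := at_ex e'
  obtain ⟨k, rfl⟩ := h₁ Q Q' x y x' y' hQ hQ' hx (by omega) d1
  have hne : x' ≠ -1 := by
    rintro rfl
    have := Nat.le_of_dvd (-1 : ℚ).den_pos d1
    have e1 : (-1 : ℚ).den = 1 := rfl
    omega
  obtain ⟨yp, hp⟩ := hQ'.chord (l := u) at_P hne (by linarith)
  obtain ⟨ym, hm⟩ := hQ'.chord (l := v) at_P.neg hne (by linarith)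
  rw [sub_neg_eq_add] at hp hm
  have hk := h₂ Q k x y x' y' _ _ _ _ hQ hx (by omega) hQ' hp hm r1 r2
  have d3 := dvd_num_sub x.den_nz d2 (glob_cong hQ k hQ' hs)
  rw [sub_sub_sub_cancel_right] at d3
  have h3 : (a - k).num.natAbs < x.den := by
    refine (sound_num a k).trans_lt (lt_of_pow_lt_pow_left₀ 2 (Nat.zero_le _) ?_)
    rw [mul_pow, sq x.den]
    exact mul_lt_mul' ha hk (Nat.zero_le _) x.den_pos
  have h4 := Nat.eq_zero_of_dvd_of_lt d3 h3
  rw [Int.natAbs_eq_zero, Rat.num_eq_zero, sub_eq_zero] at h4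
  exact ⟨k, h4⟩

end Vale.Agent.P027
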