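import Vale.Agent.P027.HDb
import Vale.Agent.P345.Prim
import Vale.Agent.P345.Export

/-! P027 Main: export, r.e. sets, undecidability.
`HD.out`: transport along Fintype.equivFin (MvPolynomial.rename (Sum.map id e), aeval_rename), L' = L ++ L.map Prod.swap.
`HD.isNat`: z = n iff z is an integer and 0 <= z (`HD.isInt`, `HD.le`).
`HD.re`: `mrdp` gives m and P; a is the cast of some s in S iff all a i are naturals and
there is w with all w j naturals and aeval (Sum.elim a w) P = 0 (`HD.all`, `HD.exN`, `HD.eq`, `IsP.comp`, `IsP.aeval`;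
cast: (eval v P : Q) = aeval (cast v) P by MvPolynomial.induction_on or map_aeval / eval2).
`re_not_comp`: S = {s | (Nat.Partrec.Code.eval (Denumerable.ofNat Code (s 0)) 0).Dom}; ComputablePred.halting_problem_re / 
halting_problem 0; REPred is Partrec.dom_re of a Partrec function (Nat.Partrec.Code.eval_part.comp, Computable.ofNat,
Primrec.fin_app); a decision procedure composed with Computable.encode decides the halting problem (ofNat_encode). -/

namespace Vale.Agent.P027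

theorem mrdp {n : ℕ} (S : Set (Fin n → ℕ)) (hS : REPred fun s => s ∈ S) :
    ∃ (m : ℕ) (P : MvPolynomial (Fin n ⊕ Fin m) ℤ), ∀ a : Fin n → ℕ, a ∈ S ↔ ∃ w : Fin m → ℕ,
      MvPolynomial.eval (Sum.elim (fun i => (a i : ℤ)) (fun j => (w j : ℤ))) P = 0 := by
  obtain ⟨m, P, h, -⟩ := Vale.Agent.P345.SF.toPoly (Vale.Agent.P345.SF_of_re hS)
  exact ⟨m, P, h⟩

theorem HD.out {n : ℕ} {S : (Fin n → ℚ) → Prop} (h : HD S) (r : ℕ → ℕ → Prop)
    (h1 : ∀ A, r A A) (h2 : ∀ A B, r A B → r B A → A = B) :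
    ∃ (m : ℕ) (f : MvPolynomial (Fin n ⊕ Fin m) ℤ) (L : List (Fin m × Fin m)),
      ∀ a, S a ↔ ∃ y : Fin m → ℚ, MvPolynomial.aeval (Sum.elim a y) f = 0 ∧
        ∀ p ∈ L, r (Ht (y p.1)) (Ht (y p.2)) := by
  obtain ⟨κ, _, F, L, ⟨f, hf⟩, hS⟩ := h
  let e := Fintype.equivFin κ
  have key : ∀ (a : Fin n → ℚ) (y : Fin (Fintype.card κ) → ℚ),
      MvPolynomial.aeval (Sum.elim a y) (MvPolynomial.rename (Sum.map id e) f) =
        F (Sum.elim a fun k => y (e k)) := fun a y => by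
    rw [MvPolynomial.aeval_rename, hf]
    congr 2
    funext s
    cases s <;> rfl
  refine ⟨_, MvPolynomial.rename (Sum.map id e) f, L.map (fun p => (e p.1, e p.2)) ++
    L.map (fun p => (e p.2, e p.1)), fun a => (hS a).trans ⟨?_, ?_⟩⟩
  · rintro ⟨y, h3, h4⟩
    refine ⟨fun j => y (e.symm j), by simpa only [key, Equiv.symm_apply_apply] using h3,
      fun p hp => ?_⟩
    rcases List.mem_append.1 hp with hp | hp <;> obtain ⟨q, hq, rfl⟩ := List.mem_map.1 hp <;>
      simp only [Equiv.symm_apply_apply, h4 q hq, h1]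
  · rintro ⟨y, h3, h4⟩
    exact ⟨fun k => y (e k), (key a y).symm.trans h3, fun p hp => h2 _ _
      (h4 _ (List.mem_append_left _ (List.mem_map_of_mem hp)))
      (h4 _ (List.mem_append_right _ (List.mem_map_of_mem hp)))⟩

theorem HD.isNat {ι : Type} {F : (ι → ℚ) → ℚ} (hF : IsP F) : HD fun a => ∃ n : ℕ, F a = n := by
  refine ((HD.isInt hF).and (HD.le IsP.zero hF)).of_iff fun a => ⟨?_, ?_⟩
  · rintro ⟨n, hn⟩
    exact ⟨⟨n, by rw [hn, Int.cast_natCast]⟩, by rw [hn]; exact Nat.cast_nonneg n⟩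
  · rintro ⟨⟨z, hz⟩, h0⟩
    rw [hz] at h0
    obtain ⟨n, rfl⟩ := Int.eq_ofNat_of_zero_le (Int.cast_nonneg_iff.1 h0)
    exact ⟨n, by rw [hz, Int.cast_natCast]⟩

theorem HD.re {n : ℕ} (S : Set (Fin n → ℕ)) (hS : REPred fun s => s ∈ S) :
    HD fun a : Fin n → ℚ => ∃ s ∈ S, a = fun i => (s i : ℚ) := by
  obtain ⟨m, P, hP⟩ := mrdp S hS
  have key : ∀ (s : Fin n → ℕ) (w : Fin m → ℕ),
      MvPolynomial.aeval (Sum.elim (fun i => (s i : ℚ)) fun j => (w j : ℚ)) P = 0 ↔
      MvPolynomial.eval (Sum.elim (fun i => (s i : ℤ)) fun j => (w j : ℤ)) P = 0 := fun s w => by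
    have h1 := MvPolynomial.comp_aeval_apply (Sum.elim (fun i => (s i : ℤ)) fun j => (w j : ℤ))
      (Algebra.ofId ℤ ℚ) P
    have h2 : (fun x => Algebra.ofId ℤ ℚ (Sum.elim (fun i => (s i : ℤ)) (fun j => (w j : ℤ)) x)) =
        Sum.elim (fun i => (s i : ℚ)) fun j => (w j : ℚ) := funext fun x => by
      cases x <;> simp
    rw [h2] at h1
    rw [← h1, ← MvPolynomial.coe_aeval_eq_eval]
    exact map_eq_zero_iff _ (algebraMap ℤ ℚ).injective_int
  have h3 : HD fun a : Fin n → ℚ => ∃ w : Fin m → ℚ, (∀ j, ∃ k : ℕ, w j = k) ∧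
      MvPolynomial.aeval (Sum.elim a w) P = 0 := by
    refine HD.exN (((HD.all fun j => HD.isNat (IsP.proj (Sum.inr j))).and
      (HD.eq (IsP.aeval P) IsP.zero)).of_iff fun v => ?_)
    have e : (Sum.elim (fun i => v (.inl i)) fun j => v (.inr j)) = v := funext fun x => by
      cases x <;> rfl
    rw [e]
  refine ((HD.all fun i => HD.isNat (IsP.proj i)).and h3).of_iff fun a => ⟨?_, ?_⟩
  · rintro ⟨s, hs, rfl⟩
    obtain ⟨w, hw⟩ := (hP s).1 hs
    exact ⟨fun i => ⟨s i, rfl⟩, fun j => w j, fun j => ⟨w j, rfl⟩, (key s w).2 hw⟩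
  · rintro ⟨ha, w, hw, h0⟩
    choose s hs using ha
    choose u hu using hw
    obtain rfl : a = fun i => (s i : ℚ) := funext hs
    obtain rfl : w = fun j => (u j : ℚ) := funext hu
    exact ⟨s, (hP s).2 ⟨u, (key s u).1 h0⟩, rfl⟩

theorem re_not_comp : ∃ S : Set (Fin 1 → ℕ), (REPred fun s => s ∈ S) ∧
    ¬ ComputablePred fun k : ℕ => (fun _ : Fin 1 => k) ∈ S := by
  refine ⟨{s | (Nat.Partrec.Code.eval (Denumerable.ofNat Nat.Partrec.Code (s 0)) 0).Dom},
    (Nat.Partrec.Code.eval_part.comp ((Computable.ofNat _).comp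
      (Primrec.fin_app.comp Primrec.id (Primrec.const 0)).to_comp) (Computable.const 0)).dom_re,
    fun h => ComputablePred.halting_problem 0 ?_⟩
  obtain ⟨f, hf, e⟩ := ComputablePred.computable_iff.1 h
  refine ComputablePred.computable_iff.2 ⟨fun c => f (Encodable.encode c),
    hf.comp Computable.encode, funext fun c => ?_⟩
  rw [← congrFun e (Encodable.encode c), Set.mem_ofPred_eq, Denumerable.ofNat_encode]

end Vale.Agent.P027
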