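import Vale.Agent.P027.Glob
import Vale.Agent.P027.Inf

/-! P027 Comp: every nonzero integer satisfies the formula.
`comp_big`: M = (2j+1) ga has |M| >= 2j+1; 2 |k| |M| |ga| + ga^2 + (5C + log 4)/eta <= 3 M^2 and B <= eta M^2 for large j.
`comp`: `str_ex`; B = C + log (8 * max (Ht N) (Ht (k^2)) + 8); Q = P + (j P + j P), g Q = M /= 0, so Q = (x, y) (`at_or`, map_zero),
x <= 0 (`egg_sign`), log (2 d) >= log (Ht x) = hh Q >= eta M^2 - C (`egg_ht`), so d >= 4 max + 4 > 1.  Q' = k Q has g = kM /= 0,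
Q' = (x', y'); d | den x' (`glob_comb` with i = k, j = 0), so x' /= 0, x' /= -1, x /= 0, y' /= 0 (`At.y0`).  i = x'^-1
(|num i| = den x'), s = x' y / (y' x) (`glob_cong`), u = (y'-1)/(x'+1), v = (y'+1)/(x'+1); `At.chord` with `at_P`, `at_P.neg`;
the last two inequalities by taking logs (`At.hh`, `Ht_pow`, Real.log_le_log_iff). -/

namespace Vale.Agent.P027

theorem comp_big {η C : ℝ} (hη : 0 < η) (ga k : ℤ) (hga : ga ≠ 0) (B : ℝ) :
    ∃ j : ℕ, B ≤ η * (((2 * j + 1) * ga : ℤ) : ℝ) ^ 2 ∧ ∀ e : ℤ, e = 1 ∨ e = -1 →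
      Real.log 4 + η * ((k * ((2 * j + 1) * ga) + e * ga : ℤ) : ℝ) ^ 2 + C ≤
        η * ((k * ((2 * j + 1) * ga) : ℤ) : ℝ) ^ 2 - C +
          3 * (η * (((2 * j + 1) * ga : ℤ) : ℝ) ^ 2 - C) := by
  obtain ⟨j, hj⟩ := exists_nat_ge (2 * |(k : ℝ)| + (|5 * C + Real.log 4| + |B|) / η)
  have h0 : (0 : ℝ) ≤ j := Nat.cast_nonneg j
  have h1 : 0 ≤ (|5 * C + Real.log 4| + |B|) / η := by positivity
  have h2 : (|5 * C + Real.log 4| + |B|) / η ≤ 2 * j + 1 := by linarith [abs_nonneg (k : ℝ)]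
  rw [div_le_iff₀ hη] at h2
  have h3 : 2 * |(k : ℝ)| ≤ 2 * j + 1 := by linarith
  have ha : (1 : ℝ) ≤ (ga : ℝ) ^ 2 := by
    have : (0 : ℤ) < ga ^ 2 := by positivity
    exact_mod_cast Int.add_one_le_of_lt this
  refine ⟨j, ?_⟩
  push_cast
  generalize (2 * (j : ℝ) + 1) = n, (by linarith : (1 : ℝ) ≤ 2 * (j : ℝ) + 1) = hn at *
  have h4 : n ≤ n ^ 2 := by nlinarith
  have h5 : n ^ 2 ≤ n ^ 2 * (ga : ℝ) ^ 2 := le_mul_of_one_le_right (by positivity) ha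
  have h6 : n * η ≤ η * (n * ga) ^ 2 := by
    rw [mul_comm, mul_pow]
    exact mul_le_mul_of_nonneg_left (h4.trans h5) hη.le
  refine ⟨by linarith [le_abs_self B, abs_nonneg (5 * C + Real.log 4)], fun e he => ?_⟩
  have h7 : (e : ℝ) ^ 2 = 1 ∧ 2 * (k * e : ℝ) ≤ n := by
    rcases he with rfl | rfl
    · exact ⟨by norm_num, by push_cast; linarith [le_abs_self (k : ℝ)]⟩
    · exact ⟨by norm_num, by push_cast; linarith [neg_abs_le (k : ℝ)]⟩
  have h8 := mul_le_mul_of_nonneg_right h7.2 (by positivity : 0 ≤ η * n * (ga : ℝ) ^ 2)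
  have h9 := mul_le_mul_of_nonneg_right (hn.trans h4) (by positivity : 0 ≤ η * (ga : ℝ) ^ 2)
  have h10 : η * (k * (n * ga) + e * ga : ℝ) ^ 2 = η * (k * (n * ga) : ℝ) ^ 2 +
      2 * (k * e : ℝ) * (η * n * (ga : ℝ) ^ 2) + η * (ga : ℝ) ^ 2 := by
    linear_combination η * (ga : ℝ) ^ 2 * h7.1
  have h11 : η * (n * ga : ℝ) ^ 2 = n * (η * n * (ga : ℝ) ^ 2) := by ring
  have h12 : η * (n * ga : ℝ) ^ 2 = n ^ 2 * (η * (ga : ℝ) ^ 2) := by ring
  linarith [le_abs_self (5 * C + Real.log 4), abs_nonneg B]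

theorem comp_log {p q c : ℚ} (h : Real.log 4 + Real.log (Ht p) ≤
    Real.log (Ht q) + 3 * Real.log (Ht c)) : 4 * Ht p ≤ Ht q * Ht (c ^ 3) := by
  have h1 : (0 : ℝ) < Ht p := by exact_mod_cast Ht_pos p
  have h2 : (0 : ℝ) < Ht q := by exact_mod_cast Ht_pos q
  have h3 : (0 : ℝ) < Ht c := by exact_mod_cast Ht_pos c
  have h4 : Real.log (4 * Ht p) ≤ Real.log (Ht q * Ht c ^ 3) := by
    rw [Real.log_mul (by norm_num) h1.ne', Real.log_mul h2.ne' (by positivity), Real.log_pow]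
    exact_mod_cast h
  rw [Real.log_le_log_iff (by positivity) (by positivity)] at h4
  rw [Ht_pow]
  exact_mod_cast h4

theorem comp (N : ℕ) (k : ℤ) (hk : k ≠ 0) :
    Psi (fun p q q' => 4 * Ht p ≤ Ht q * Ht q') N k := by
  obtain ⟨g, η, C, hη, hP, hC⟩ := str_ex
  set m : ℕ := max (Ht N) (Ht ((k : ℚ) ^ 2)) with hm
  obtain ⟨j, hB, hj⟩ := comp_big (C := C) hη (g P) k hP (C + Real.log (8 * m + 8 : ℕ))
  set M : ℤ := (2 * j + 1) * g P with hM
  have hM0 : M ≠ 0 := mul_ne_zero (by omega) hP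
  set Q : G := P + (j • P + j • P) with hQd
  have hg : g Q = M := by
    rw [hQd, map_add, map_add, map_nsmul, hM, nsmul_eq_mul]
    ring
  obtain ⟨x, y, hQ⟩ := (at_or Q).resolve_left fun h => hM0 (by rw [← hg, h, map_zero])
  have hx : x ≤ 0 := egg_sign _ hQ
  obtain ⟨e1, e2⟩ := egg_ht hQ.eq hx
  have c1 := (abs_le.1 (hC Q)).1
  rw [hQ.hh, hg] at c1
  have d1 : 8 * m + 8 ≤ Ht x := by
    have h1 : Real.log (8 * m + 8 : ℕ) ≤ Real.log (Ht x) := by linarith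
    rw [Real.log_le_log_iff (by positivity) (by exact_mod_cast Ht_pos x)] at h1
    exact_mod_cast h1
  have d2 : 4 * m + 4 ≤ x.den := by omega
  have hg' : g (k • Q) = k * M := by rw [map_zsmul, hg, smul_eq_mul]
  obtain ⟨x', y', hQ'⟩ := (at_or (k • Q)).resolve_left fun h =>
    mul_ne_zero hk hM0 (by rw [← hg', h, map_zero])
  have hD : Dv x.den Q := fun a b h => by rw [(hQ.uniq h).1]
  have hd : x.den ∣ x'.den := by
    have h1 := glob_comb hQ hD hD k 0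
    rw [zero_zsmul, add_zero] at h1
    exact h1 _ _ hQ'
  have hd' := Nat.le_of_dvd x'.den_pos hd
  have n1 : x' ≠ 0 := by
    rintro rfl
    rw [Rat.den_zero] at hd'
    omega
  have n2 : x' ≠ -1 := by
    rintro rfl
    rw [Rat.neg_den, Rat.den_one] at hd'
    omega
  have n3 : x ≠ 0 := by
    rintro rfl
    rw [Rat.den_zero] at d2
    omega
  have n4 : y' ≠ 0 := by
    rintro rfl
    exact n1 hQ'.y0
  have n5 : x' + 1 ≠ 0 := fun h => n2 (by linarith)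
  have hs : x' * y / (y' * x) * y' * x = x' * y := by field_simp
  have c2 := (abs_le.1 (hC (k • Q))).1
  rw [hQ'.hh, hg'] at c2
  refine ⟨x, y, x', y', x'⁻¹, x' * y / (y' * x), (y' - 1) / (x' + 1), (y' + 1) / (x' + 1), hQ.eq,
    hQ'.eq, hx, ?_, ?_, inv_mul_cancel₀ n1, ?_, hs, ?_, div_mul_cancel₀ _ n5,
    div_mul_cancel₀ _ n5, ?_, ?_⟩
  · have := le_max_left (Ht N) (Ht ((k : ℚ) ^ 2))
    simp only [e1, Ht_one]
    omega
  · have := le_max_right (Ht N) (Ht ((k : ℚ) ^ 2))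
    simp only [e1, Ht_one]
    omega
  · rw [Ht_pow, e1, Rat.num_inv, Int.natAbs_mul, Int.natAbs_sign_of_ne_zero (Rat.num_ne_zero.2 n1),
      one_mul, Int.natAbs_natCast]
    exact pow_dvd_pow_of_dvd hd 2
  · rw [Ht_pow, e1]
    exact pow_dvd_pow_of_dvd (glob_cong hQ k hQ' hs) 2
  · obtain ⟨z, hz⟩ := hQ'.chord (l := (y' - 1) / (x' + 1)) at_P n2 (by
      rw [sub_neg_eq_add, div_mul_cancel₀ _ n5])
    have c3 := (abs_le.1 (hC (k • Q + P))).2
    rw [hz.hh, map_add, hg', sub_neg_eq_add] at c3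
    have c4 := hj 1 (Or.inl rfl)
    rw [one_mul] at c4
    exact comp_log (by linarith)
  · obtain ⟨z, hz⟩ := hQ'.chord (l := (y' + 1) / (x' + 1)) at_P.neg n2 (by
      rw [sub_neg_eq_add, div_mul_cancel₀ _ n5, sub_neg_eq_add])
    have c3 := (abs_le.1 (hC (k • Q + -P))).2
    rw [hz.hh, map_add, map_neg, hg', sub_neg_eq_add] at c3
    have c4 := hj (-1) (Or.inr rfl)
    rw [neg_one_mul] at c4
    exact comp_log (by linarith)

end Vale.Agent.P027
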