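import Mathlib

/-! P027 (helper14): Z is positive-existentially definable in Q with equations between heights
of single rationals.  Definitions and the basic interface of the curve y^2 = x^3 - 2x. -/

namespace Vale.Agent.P027

open WeierstrassCurve

/-- naive multiplicative height of a rational number -/
def Ht (q : ℚ) : ℕ := max q.num.natAbs q.den

/-- the curve y^2 = x^3 - 2x -/
def W : WeierstrassCurve.Affine ℚ := ⟨0, 0, 0, -2, 0⟩

theorem W_disc : W.Δ = 512 := by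
  simp only [W, WeierstrassCurve.Δ, WeierstrassCurve.b₂, WeierstrassCurve.b₄, WeierstrassCurve.b₆,
    WeierstrassCurve.b₈]
  norm_num

instance W_ell : W.IsElliptic := ⟨by rw [W_disc]; exact isUnit_iff_ne_zero.mpr (by norm_num)⟩

abbrev G : Type := W.Point

theorem ns_iff (x y : ℚ) : W.Nonsingular x y ↔ y ^ 2 = x ^ 3 - 2 * x := by
  rw [← Affine.equation_iff_nonsingular, Affine.equation_iff]
  simp only [W]
  constructor <;> intro h <;> linarith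

/-- `R` is the affine point `(x, y)` -/
def At (R : G) (x y : ℚ) : Prop := ∃ h : W.Nonsingular x y, R = .some x y h

noncomputable def P : G := .some (-1) 1 ((ns_iff _ _).2 (by norm_num))

noncomputable def T : G := .some 0 0 ((ns_iff _ _).2 (by norm_num))

/-- naive logarithmic height -/
noncomputable def hh (R : G) : ℝ := Height.logHeight R.xRep

/-- local parameter x / y -/
def tt : G → ℚ
  | .zero => 0
  | .some x y _ => x / y

/-- `R` is p-adically close to the origin -/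
def V (p : ℕ) (ρ : ℚ) (R : G) : Prop := ∀ x y, At R x y → 1 ≤ padicNorm p x * ρ ^ 2

/-- `d` divides the denominator of x(R) -/
def Dv (d : ℕ) (R : G) : Prop := ∀ x y, At R x y → d ∣ x.den

/-- the structure of the Mordell-Weil group that we use -/
def Str (g : G →+ ℤ) (η C : ℝ) : Prop :=
  0 < η ∧ g P ≠ 0 ∧ ∀ R, |hh R - η * (g R : ℝ) ^ 2| ≤ C

/-- the defining formula; `r p q q'` stands for an approximate form of `Ht p ≤ Ht q * Ht q'` -/
def Psi (r : ℚ → ℚ → ℚ → Prop) (N : ℕ) (a : ℚ) : Prop :=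
  ∃ x y x' y' i s u v : ℚ, y ^ 2 = x ^ 3 - 2 * x ∧ y' ^ 2 = x' ^ 3 - 2 * x' ∧ x ≤ 0 ∧
    r (N : ℚ) (x + 1) 1 ∧ r (a ^ 2) (x + 1) 1 ∧ i * x' = 1 ∧
    Ht ((x + 1) ^ 2) ∣ i.num.natAbs ^ 2 ∧ s * y' * x = x' * y ∧
    Ht ((x + 1) ^ 2) ∣ (a - s).num.natAbs ^ 2 ∧ u * (x' + 1) = y' - 1 ∧ v * (x' + 1) = y' + 1 ∧
    r (u ^ 2 - x' + 1) x' (x ^ 3) ∧ r (v ^ 2 - x' + 1) x' (x ^ 3)

def Cp (p q : ℚ) : Prop :=
  ∃ z w : ℚ, 1 ≤ z ∧ Ht z = Ht q ∧ w * z = 1 ∧ Ht (p ^ 2) ∣ w.num.natAbs ^ 2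

def Rq (p q q' : ℚ) : Prop :=
  ∃ u v c : ℚ, Ht u = Ht q ∧ Ht v = Ht q' ∧ Cp p c ∧ Cp c (u * v)

/-- polynomial functions with integer coefficients -/
def IsP {ι : Type} (F : (ι → ℚ) → ℚ) : Prop :=
  ∃ f : MvPolynomial ι ℤ, ∀ a, F a = MvPolynomial.aeval a f

/-- Diophantine with height equations -/
def HD {ι : Type} (S : (ι → ℚ) → Prop) : Prop :=
  ∃ (κ : Type) (_ : Fintype κ) (F : (ι ⊕ κ → ℚ) → ℚ) (L : List (κ × κ)), IsP F ∧
    ∀ a, S a ↔ ∃ y : κ → ℚ, F (Sum.elim a y) = 0 ∧ ∀ p ∈ L, Ht (y p.1) = Ht (y p.2)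

theorem at_ex {x y : ℚ} (h : y ^ 2 = x ^ 3 - 2 * x) : ∃ R, At R x y :=
  ⟨_, (ns_iff x y).2 h, rfl⟩

theorem At.eq {R : G} {x y : ℚ} (h : At R x y) : y ^ 2 = x ^ 3 - 2 * x :=
  (ns_iff x y).1 h.1

theorem At.ne {R : G} {x y : ℚ} (h : At R x y) : R ≠ 0 := by
  obtain ⟨h, rfl⟩ := h
  exact Affine.Point.some_ne_zero h

theorem at_or (R : G) : R = 0 ∨ ∃ x y, At R x y := by
  cases R with
  | zero => exact Or.inl rfl
  | some x y h => exact Or.inr ⟨x, y, h, rfl⟩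

theorem At.uniq {R : G} {x y x' y' : ℚ} (h : At R x y) (h' : At R x' y') : x = x' ∧ y = y' := by
  obtain ⟨h, rfl⟩ := h
  obtain ⟨h', e⟩ := h'
  cases e
  exact ⟨rfl, rfl⟩

theorem At.ext {R R' : G} {x y : ℚ} (h : At R x y) (h' : At R' x y) : R = R' := by
  obtain ⟨h, rfl⟩ := h
  obtain ⟨h', rfl⟩ := h'
  rfl

theorem negY_eq (x y : ℚ) : W.negY x y = -y := by simp [W, Affine.negY]

theorem At.neg {R : G} {x y : ℚ} (h : At R x y) : At (-R) x (-y) := by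
  obtain ⟨h, rfl⟩ := h
  have h2 : W.Nonsingular x (-y) := by
    rw [← negY_eq x y]; exact (Affine.nonsingular_neg x y).2 h
  refine ⟨h2, ?_⟩
  rw [Affine.Point.neg_some]
  simp only [negY_eq]

theorem At.pm {R R' : G} {x y y' : ℚ} (h : At R x y) (h' : At R' x y') : R' = R ∨ R' = -R := by
  have e : (y' - y) * (y' + y) = 0 := by have := h.eq; have := h'.eq; linarith
  rcases mul_eq_zero.1 e with e | e
  · have : y' = y := by linarith
    subst this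
    exact Or.inl (h'.ext h)
  · have : y' = -y := by linarith
    subst this
    exact Or.inr (h'.ext h.neg)

theorem at_P : At P (-1) 1 := ⟨_, rfl⟩

theorem at_T : At T 0 0 := ⟨_, rfl⟩

theorem neg_T : -T = T := by
  have := at_T.neg
  rw [neg_zero] at this
  exact this.ext at_T

theorem T_add_T : T + T = 0 := by
  nth_rewrite 1 [← neg_T]
  exact neg_add_cancel T

theorem At.add_eq_zero {R₁ R₂ : G} {x₁ y₁ x₂ y₂ : ℚ} (h₁ : At R₁ x₁ y₁) (h₂ : At R₂ x₂ y₂)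
    (h : R₁ + R₂ = 0) : x₁ = x₂ ∧ y₁ = -y₂ := by
  have e : R₁ = -R₂ := eq_neg_of_add_eq_zero_left h
  subst e
  exact h₁.uniq h₂.neg

theorem sq_ne_two (x : ℚ) : x ^ 2 ≠ 2 := by
  intro h
  have h2 : IsSquare (2 : ℚ) := ⟨x, by rw [← h]; ring⟩
  have h3 : IsSquare (2 : ℕ) := by exact_mod_cast (Rat.isSquare_natCast_iff (n := 2)).1 (by exact_mod_cast h2)
  exact Nat.prime_two.prime.not_isSquare h3

theorem At.y0 {R : G} {x : ℚ} (h : At R x 0) : x = 0 := by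
  have e : x * (x ^ 2 - 2) = 0 := by have := h.eq; linarith
  rcases mul_eq_zero.1 e with e | e
  · exact e
  · exact absurd (by linarith) (sq_ne_two x)

theorem tt_zero : tt 0 = 0 := rfl

theorem At.tt {R : G} {x y : ℚ} (h : At R x y) : tt R = x / y := by
  obtain ⟨h, rfl⟩ := h
  rfl

theorem hh_zero : hh 0 = 0 := by
  simp only [hh, Affine.Point.xRep_zero]
  rw [Height.logHeight_eq_log_mulHeight]
  have : Height.mulHeight ![(1 : ℚ), 0] = 1 := by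
    rw [Height.mulHeight_swap]
    simp
  rw [this, Real.log_one]

theorem At.hh {R : G} {x y : ℚ} (h : At R x y) : hh R = Real.log (Ht x) := by
  obtain ⟨h, rfl⟩ := h
  simp only [P027.hh, Affine.Point.xRep_some]
  rw [← Height.logHeight₁_eq_logHeight, Rat.logHeight₁_eq_log_max]
  rfl

/-- three collinear points -/
theorem At.line {R₁ R₂ : G} {x₁ y₁ x₂ y₂ : ℚ} (h₁ : At R₁ x₁ y₁) (h₂ : At R₂ x₂ y₂)
    (h : R₁ + R₂ ≠ 0) : ∃ x₃ y₃ l n : ℚ, At (R₁ + R₂) x₃ y₃ ∧ y₁ = l * x₁ + n ∧ y₂ = l * x₂ + n ∧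
      -y₃ = l * x₃ + n ∧ x₁ + x₂ + x₃ = l ^ 2 ∧
      x₁ * x₂ + x₁ * x₃ + x₂ * x₃ = -2 - 2 * l * n ∧ x₁ * x₂ * x₃ = n ^ 2 := by
  have e₁ := h₁.eq
  have e₂ := h₂.eq
  have hxy : ¬(x₁ = x₂ ∧ y₁ = W.negY x₂ y₂) := by
    rintro ⟨a, b⟩
    rw [negY_eq] at b
    subst a b
    exact h (by rw [h₁.ext h₂.neg]; exact neg_add_cancel R₂)
  obtain ⟨n₁, rfl⟩ := h₁
  obtain ⟨n₂, rfl⟩ := h₂
  set l := W.slope x₁ x₂ y₁ y₂ with hl
  have hX : W.addX x₁ x₂ l = l ^ 2 - x₁ - x₂ := by simp [W, Affine.addX]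
  have hY : W.addY x₁ x₂ y₁ l = -(l * (l ^ 2 - x₁ - x₂ - x₁) + y₁) := by
    simp [W, Affine.addY, Affine.negAddY, Affine.negY, Affine.addX]
  refine ⟨W.addX x₁ x₂ l, W.addY x₁ x₂ y₁ l, l, y₁ - l * x₁,
    ⟨_, Affine.Point.add_some hxy⟩, by ring, ?_, by rw [hX, hY]; ring, by rw [hX]; ring, ?_⟩
  · by_cases hx : x₁ = x₂
    · have hy : y₁ ≠ W.negY x₂ y₂ := fun b => hxy ⟨hx, b⟩
      have := Affine.Y_eq_of_Y_ne n₁.1 n₂.1 hx hy
      rw [hx, this]; ring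
    · have h3 : l * (x₁ - x₂) = y₁ - y₂ := by
        rw [hl, Affine.slope_of_X_ne hx]; field_simp [sub_ne_zero.2 hx]
      linarith
  · rw [hX]
    by_cases hx : x₁ = x₂
    · have hy : y₁ ≠ W.negY x₂ y₂ := fun b => hxy ⟨hx, b⟩
      have hyy := Affine.Y_eq_of_Y_ne n₁.1 n₂.1 hx hy
      subst hx hyy
      rw [negY_eq] at hy
      have hy0 : y₁ ≠ 0 := fun b => hy (by rw [b, neg_zero])
      have h3 : l * (2 * y₁) = 3 * x₁ ^ 2 - 2 := by
        rw [hl, Affine.slope_of_Y_ne rfl (by rw [negY_eq]; exact hy), negY_eq]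
        simp only [W]
        have : y₁ - -y₁ ≠ 0 := by intro b; apply hy0; linarith
        field_simp
        ring
      constructor
      · linear_combination h3
      · linear_combination (-1 : ℚ) * e₁ + x₁ * h3
    · have hd : x₁ - x₂ ≠ 0 := sub_ne_zero.2 hx
      have h3 : l * (x₁ - x₂) = y₁ - y₂ := by
        rw [hl, Affine.slope_of_X_ne hx]; field_simp
      have h4 : y₂ = y₁ - l * (x₁ - x₂) := by linarith
      have h5 : x₁ * x₂ + x₁ * (l ^ 2 - x₁ - x₂) + x₂ * (l ^ 2 - x₁ - x₂) =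
          -2 - 2 * l * (y₁ - l * x₁) := by
        apply mul_left_cancel₀ hd
        rw [h4] at e₂
        linear_combination e₁ - e₂
      refine ⟨h5, ?_⟩
      linear_combination (-1 : ℚ) * e₁ + x₁ * h5

theorem At.chord {R₁ R₂ : G} {x₁ y₁ x₂ y₂ l : ℚ} (h₁ : At R₁ x₁ y₁) (h₂ : At R₂ x₂ y₂)
    (hx : x₁ ≠ x₂) (hl : l * (x₁ - x₂) = y₁ - y₂) : ∃ y₃, At (R₁ + R₂) (l ^ 2 - x₁ - x₂) y₃ := by
  obtain ⟨x₃, y₃, l', n, h₃, a, b, -, c, -⟩ :=
    h₁.line h₂ fun h => hx (h₁.add_eq_zero h₂ h).1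
  have : l' = l := by
    apply mul_right_cancel₀ (sub_ne_zero.2 hx)
    rw [hl, a, b]; ring
  subst this
  exact ⟨y₃, by rwa [show l' ^ 2 - x₁ - x₂ = x₃ by linarith]⟩

theorem At.dbl {R : G} {x y : ℚ} (h : At R x y) (hy : y ≠ 0) :
    ∃ y₃, At (R + R) (((x ^ 2 + 2) / (2 * y)) ^ 2) y₃ := by
  obtain ⟨x₃, y₃, l, n, h₃, a, -, -, c, d, -⟩ :=
    h.line h fun e => hy (by have := (h.add_eq_zero h e).2; linarith)
  have e := h.eq
  have h3 : l * (2 * y) = 3 * x ^ 2 - 2 := by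
    have hx₃ : x₃ = l ^ 2 - 2 * x := by linarith
    rw [hx₃] at d
    rw [a]
    linear_combination d
  refine ⟨y₃, ?_⟩
  have : ((x ^ 2 + 2) / (2 * y)) ^ 2 = x₃ := by
    have hx₃ : x₃ = l ^ 2 - 2 * x := by linarith
    rw [hx₃, div_pow, div_eq_iff (by positivity)]
    linear_combination (-(l * (2 * y) + 3 * x ^ 2 - 2)) * h3 + 8 * x * e
  rwa [this]

theorem At.add_T {R : G} {x y : ℚ} (h : At R x y) (hx : x ≠ 0) :
    ∃ y₃, At (R + T) (-2 / x) y₃ := by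
  obtain ⟨y₃, h₃⟩ := h.chord (l := y / x) at_T hx (by field_simp; ring)
  refine ⟨y₃, ?_⟩
  have e := h.eq
  have : (y / x) ^ 2 - x - 0 = -2 / x := by
    field_simp
    linear_combination e
  rwa [this] at h₃

theorem Ht_pos (q : ℚ) : 0 < Ht q := lt_of_lt_of_le q.den_pos (le_max_right _ _)

theorem Ht_real (q : ℚ) : (Ht q : ℝ) = Height.mulHeight₁ q := by
  rw [Rat.mulHeight₁_eq_max]; rfl

theorem Ht_pow (q : ℚ) (n : ℕ) : Ht (q ^ n) = Ht q ^ n := by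
  have : (Ht (q ^ n) : ℝ) = (Ht q : ℝ) ^ n := by
    rw [Ht_real, Ht_real, Height.mulHeight₁_pow]
  exact_mod_cast this

theorem Ht_mul_le (p q : ℚ) : Ht (p * q) ≤ Ht p * Ht q := by
  have : (Ht (p * q) : ℝ) ≤ (Ht p : ℝ) * Ht q := by
    rw [Ht_real, Ht_real, Ht_real]; exact Height.mulHeight₁_mul_le p q
  exact_mod_cast this

theorem Ht_nat {n : ℕ} (hn : 0 < n) : Ht (n : ℚ) = n := by
  simp only [Ht, Rat.num_natCast, Rat.den_natCast, Int.natAbs_natCast]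
  exact max_eq_left hn

theorem Ht_one : Ht 1 = 1 := by simp [Ht]

end Vale.Agent.P027
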