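import Vale.Agent.P027.Sq

/-! P027 Desc: 2-descent on y^2 = x^3 - 2x.
`desc_sq`: v = y / u, v^2 = u^4 - 2, z = u^2 + v satisfies z (u^2 - v) = 2, z + 2/z = 2u^2 > 0, so z > 0.
`sq_half`: z = 2c^2, or z = c^2 and then 2/z = 2 (1/c)^2; in both cases there is c /= 0 with
4 c^2 u^2 = 4 c^4 + 2.  Put a = 2c(c+u), b = 2ca; a^2 - 4c^2 a - 2 = 0 so a /= 0, b^2 = a^3 - 2a, `at_ex` gives S,
`At.dbl` gives x(S+S) = ((a^2+2)/(2b))^2 = u^2 (indeed (a^2+2)/(2b) = u), `At.pm` gives R = S+S or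
R = -(S+S) = (-S)+(-S).
`desc_neg` (x = -u^2): if R + P = 0 then R = (-P)+(-P)+P; else `At.line` with `at_P`: x * (-1) * x3 = n^2, so
x3 = (n/u)^2; if x3 = 0 then y3 = 0 (curve equation), R + P = T (`At.ext`), R = (-P)+(-P)+P+T;
else R + P = S+S and R = (S-P)+(S-P)+P.
`desc`: R = 0; x = 0 gives y = 0, R = T; otherwise `sq_curve`; for x = -2u^2 or 2u^2 use `At.add_T`
(x(R+T) = -2/x = (1/u)^2 or -(1/u)^2) and R = (R+T)+T (`T_add_T`); finish with abel. -/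

namespace Vale.Agent.P027

theorem desc_sq {R : G} {x y : ℚ} (h : At R x y) (u : ℚ) (hu : x = u ^ 2) (h0 : x ≠ 0) :
    ∃ S : G, R = S + S := by
  have e := h.eq
  have hu0 : u ≠ 0 := fun e => h0 (by rw [hu, e]; ring)
  have hv : (y / u) ^ 2 = u ^ 4 - 2 := by
    rw [hu] at e
    field_simp
    linear_combination e
  have hz : (u ^ 2 + y / u) * (u ^ 2 - y / u) = 2 := by linear_combination -hv
  have hz0 : u ^ 2 + y / u ≠ 0 := fun e => by rw [e] at hz; norm_num at hz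
  have h2 : 2 / (u ^ 2 + y / u) = u ^ 2 - y / u := by
    rw [div_eq_iff hz0]
    linear_combination -hz
  have hpos : 0 < u ^ 2 + y / u := by
    by_contra hc
    have h3 : u ^ 2 + y / u < 0 := lt_of_le_of_ne (not_lt.1 hc) hz0
    have h4 : 0 < u ^ 2 := by positivity
    nlinarith
  obtain ⟨c, hc0, hc⟩ : ∃ c : ℚ, c ≠ 0 ∧ 4 * c ^ 2 * u ^ 2 = 4 * c ^ 4 + 2 := by
    obtain ⟨c, hc | hc⟩ := sq_half (u := u) hpos (by rw [h2]; ring)
    · have hc0 : c ≠ 0 := fun e => hz0 (by rw [hc, e]; ring)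
      have h3 : u ^ 2 - y / u = 2 * u ^ 2 - c ^ 2 := by linear_combination -hc
      rw [hc, h3] at hz
      refine ⟨c⁻¹, inv_ne_zero hc0, ?_⟩
      field_simp
      linear_combination 2 * hz
    · have hc0 : c ≠ 0 := fun e => hz0 (by rw [hc, e]; ring)
      have h3 : u ^ 2 - y / u = 2 * u ^ 2 - 2 * c ^ 2 := by linear_combination -hc
      rw [hc, h3] at hz
      exact ⟨c, hc0, by linear_combination hz⟩
  obtain ⟨a, ha⟩ : ∃ a, a = 2 * c * (c + u) := ⟨_, rfl⟩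
  have h3 : a ^ 2 - 4 * c ^ 2 * a - 2 = 0 := by rw [ha]; linear_combination hc
  have h4 : a ^ 2 + 2 = 4 * c * a * u := by rw [ha]; linear_combination -hc
  have ha0 : a ≠ 0 := fun e => by rw [e] at h3; norm_num at h3
  obtain ⟨S, hS⟩ := at_ex (x := a) (y := 2 * c * a) (by linear_combination -a * h3)
  obtain ⟨y₃, h5⟩ := hS.dbl (by positivity)
  have h6 : ((a ^ 2 + 2) / (2 * (2 * c * a))) ^ 2 = x := by
    rw [hu, h4]
    congr 1
    field_simp
    ring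
  rw [h6] at h5
  rcases h5.pm h with e | e
  · exact ⟨S, e⟩
  · exact ⟨-S, by rw [e]; abel⟩

theorem desc_neg {R : G} {x y : ℚ} (h : At R x y) (u : ℚ) (hu : x = -u ^ 2) (h0 : x ≠ 0) :
    ∃ S : G, R = S + S + P ∨ R = S + S + P + T := by
  have hu0 : u ≠ 0 := fun e => h0 (by rw [hu, e]; ring)
  by_cases h1 : R + P = 0
  · exact ⟨-P, Or.inl (by rw [eq_neg_of_add_eq_zero_left h1]; abel)⟩
  obtain ⟨x₃, y₃, l, n, h₃, -, -, -, -, -, h2⟩ := h.line at_P h1
  by_cases h3 : x₃ = 0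
  · have h4 : y₃ = 0 := by
      have := h₃.eq
      rw [h3] at this
      exact pow_eq_zero_iff (two_ne_zero) |>.1 (by linear_combination this)
    rw [h3, h4] at h₃
    exact ⟨-P, Or.inr (by rw [← h₃.ext at_T]; abel)⟩
  · obtain ⟨S, hS⟩ := desc_sq h₃ (n / u) (by
      rw [hu] at h2
      field_simp
      linear_combination h2) h3
    exact ⟨S - P, Or.inl (by rw [eq_sub_of_add_eq hS]; abel)⟩

theorem desc (R : G) :
    ∃ S : G, R = S + S ∨ R = S + S + T ∨ R = S + S + P ∨ R = S + S + P + T := by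
  rcases at_or R with rfl | ⟨x, y, h⟩
  · exact ⟨0, Or.inl (by abel)⟩
  by_cases h0 : x = 0
  · have h4 : y = 0 := by
      have := h.eq
      rw [h0] at this
      exact pow_eq_zero_iff (two_ne_zero) |>.1 (by linear_combination this)
    rw [h0, h4] at h
    exact ⟨0, Or.inr (Or.inl (by rw [h.ext at_T]; abel))⟩
  have hT : R = R + T + T := by rw [add_assoc, T_add_T, add_zero]
  have h1 : -2 / x ≠ 0 := div_ne_zero (by norm_num) h0
  obtain ⟨y', h'⟩ := h.add_T h0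
  obtain ⟨u, hu | hu | hu | hu⟩ := sq_curve h.eq h0
  · obtain ⟨S, hS⟩ := desc_sq h u hu h0
    exact ⟨S, Or.inl hS⟩
  · obtain ⟨S, hS⟩ := desc_neg h u hu h0
    exact ⟨S, Or.inr (Or.inr hS)⟩
  · have hu0 : u ≠ 0 := fun e => h0 (by rw [hu, e]; ring)
    obtain ⟨S, hS | hS⟩ := desc_neg h' u⁻¹ (by rw [hu]; field_simp) h1
    · exact ⟨S, Or.inr (Or.inr (Or.inr (by rw [hT, hS])))⟩
    · exact ⟨S, Or.inr (Or.inr (Or.inl (add_right_cancel hS)))⟩
  · have hu0 : u ≠ 0 := fun e => h0 (by rw [hu, e]; ring)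
    obtain ⟨S, hS⟩ := desc_sq h' u⁻¹ (by rw [hu]; field_simp) h1
    exact ⟨S, Or.inr (Or.inl (by rw [hT, hS]))⟩

end Vale.Agent.P027
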