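import Vale.Agent.P027.FGa

/-! P027 FGb: the points close to the origin form a group and tt is additive up to rho^5.
`fg_add`: R = 0 or S = 0 (`at_or`, `tt_zero`) trivial.  R + S = 0: V holds since `At.ne`; x1 = x2, y1 = -y2 so the
difference is 0.  Otherwise `At.line`.  n /= 0: if n = 0 then x3 = 0 (x1, x2 /= 0) and x1 x2 = -2, impossible as
N x1, N x2 > 1 >= N 2.  So x3 /= 0 and y3 /= 0 (`At.y0`).  Apply `fg_alg` with third point (x3, -y3).  With al = -l/n,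
be = 1/n: `fg_unit` and (A) give N al <= rho^2; be = 1/y1 - al t1 gives N be <= rho^3; (B) and `fg_unit` give
N (t1 + t2 + t3) <= rho^5 where t3 = x3/(-y3) = -tt (R+S); N t3 <= rho, N (1/(-y3)) <= rho^3, `fg_conv` for (x3, -y3);
`At.uniq` to conclude V.
`fg_zsmul`: Int.induction_on, using `fg_add`, `V_neg`, `tt_neg` and the ultrametric inequality. -/

namespace Vale.Agent.P027

variable {p : ℕ} [Fact p.Prime] {ρ : ℚ}

theorem FGb_add {a b c : ℚ} (ha : padicNorm p a ≤ c) (hb : padicNorm p b ≤ c) :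
    padicNorm p (a + b) ≤ c := padicNorm.nonarchimedean.trans (max_le ha hb)

theorem FGb_sub {a b c : ℚ} (ha : padicNorm p a ≤ c) (hb : padicNorm p b ≤ c) :
    padicNorm p (a - b) ≤ c := padicNorm.sub.trans (max_le ha hb)

theorem FGb_mul {a b c d : ℚ} (ha : padicNorm p a ≤ c) (hb : padicNorm p b ≤ d) :
    padicNorm p (a * b) ≤ c * d := by
  rw [padicNorm.mul]
  exact mul_le_mul ha hb (padicNorm.nonneg _) ((padicNorm.nonneg _).trans ha)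

theorem FGb_two : padicNorm p 2 ≤ 1 := by simpa using padicNorm.of_nat (p := p) 2

theorem FGb_core (h0 : 0 < ρ) (h1 : ρ < 1) {t₁ t₂ t₃ s₁ s₂ s₃ a b : ℚ}
    (n₁ : padicNorm p t₁ ≤ ρ) (n₂ : padicNorm p t₂ ≤ ρ) (m₁ : padicNorm p s₁ ≤ ρ ^ 3)
    (m₂ : padicNorm p s₂ ≤ ρ ^ 3) (e₁ : s₁ = a * t₁ + b) (e₃ : s₃ = a * t₃ + b)
    (eA : a * (1 + 2 * t₁ * (s₁ + s₂)) = t₁ ^ 2 + t₁ * t₂ + t₂ ^ 2 - 2 * s₂ ^ 2)
    (eB : (1 - 2 * a ^ 2) * (t₁ + t₂ + t₃) = 4 * a * b) :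
    padicNorm p (t₁ + t₂ + t₃) ≤ ρ ^ 5 ∧ padicNorm p t₃ ≤ ρ ∧ padicNorm p s₃ ≤ ρ ^ 3 := by
  have hp : ∀ {i j : ℕ}, i ≤ j → ρ ^ j ≤ ρ ^ i := fun h => pow_le_pow_of_le_one h0.le h1.le h
  have h4 : ρ ^ 4 < 1 := pow_lt_one₀ h0.le h1 (by norm_num)
  have u1 : padicNorm p (1 + 2 * t₁ * (s₁ + s₂)) = 1 :=
    fg_unit ((FGb_mul (FGb_mul FGb_two n₁) (FGb_add m₁ m₂)).trans_lt (by linarith [show 1 * ρ * ρ ^ 3 = ρ ^ 4 by ring]))
  have na : padicNorm p a ≤ ρ ^ 2 := by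
    have h := congrArg (padicNorm p) eA
    rw [padicNorm.mul, u1, mul_one, sq t₁, sq t₂, sq s₂] at h
    rw [h]
    refine FGb_sub (sq ρ ▸ FGb_add (FGb_add (FGb_mul n₁ n₁) (FGb_mul n₁ n₂)) (FGb_mul n₂ n₂)) ?_
    refine (FGb_mul FGb_two (FGb_mul m₂ m₂)).trans ?_
    rw [one_mul, ← pow_add]
    exact hp (by norm_num)
  have nb : padicNorm p b ≤ ρ ^ 3 := by
    rw [show b = s₁ - a * t₁ by rw [e₁]; ring]
    exact FGb_sub m₁ (pow_succ ρ 2 ▸ FGb_mul na n₁)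
  have u2 : padicNorm p (1 - 2 * a ^ 2) = 1 := by
    rw [sub_eq_add_neg]
    refine fg_unit ?_
    rw [padicNorm.neg, sq a]
    exact (FGb_mul FGb_two (FGb_mul na na)).trans_lt
      (by linarith [show 1 * (ρ ^ 2 * ρ ^ 2) = ρ ^ 4 by ring])
  have nt : padicNorm p (t₁ + t₂ + t₃) ≤ ρ ^ 5 := by
    have h := congrArg (padicNorm p) eB
    rw [padicNorm.mul, u2, one_mul, show (4 : ℚ) = 2 * 2 by norm_num] at h
    rw [h]
    exact (FGb_mul (FGb_mul (FGb_mul FGb_two FGb_two) na) nb).trans (le_of_eq (by ring))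
  have n₃ : padicNorm p t₃ ≤ ρ := by
    rw [show t₃ = t₁ + t₂ + t₃ - t₁ - t₂ by ring]
    exact FGb_sub (FGb_sub (nt.trans ((hp (i := 1) (by norm_num)).trans (pow_one ρ).le)) n₁) n₂
  refine ⟨nt, n₃, ?_⟩
  rw [e₃]
  exact FGb_add (pow_succ ρ 2 ▸ FGb_mul na n₃) nb

omit [Fact p.Prime] in
theorem FGb_V {R : G} {x y : ℚ} (h : At R x y) (hx : 1 ≤ padicNorm p x * ρ ^ 2) : V p ρ R :=
  fun _ _ h' => (h.uniq h').1 ▸ hx

omit [Fact p.Prime] in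
theorem FGb_zero : V p ρ 0 := fun _ _ h => absurd rfl h.ne

theorem tt_neg (R : G) : tt (-R) = -tt R := by
  rcases at_or R with rfl | ⟨x, y, h⟩
  · rw [neg_zero, tt_zero, neg_zero]
  · rw [h.tt, h.neg.tt, div_neg]

omit [Fact p.Prime] in
theorem V_neg {R : G} (h : V p ρ R) : V p ρ (-R) := by
  intro x y h'
  have h2 := h'.neg
  rw [neg_neg] at h2
  exact h x _ h2

theorem fg_add (h0 : 0 < ρ) (h1 : ρ < 1) {R S : G} (hR : V p ρ R) (hS : V p ρ S) :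
    V p ρ (R + S) ∧ padicNorm p (tt (R + S) - tt R - tt S) ≤ ρ ^ 5 := by
  have h5 : padicNorm p 0 ≤ ρ ^ 5 := by rw [padicNorm.zero]; positivity
  rcases at_or R with rfl | ⟨x₁, y₁, a₁⟩
  · rw [zero_add, tt_zero, sub_zero, sub_self]
    exact ⟨hS, h5⟩
  rcases at_or S with rfl | ⟨x₂, y₂, a₂⟩
  · rw [add_zero, tt_zero, sub_zero, sub_self]
    exact ⟨hR, h5⟩
  by_cases h : R + S = 0
  · obtain ⟨rfl, rfl⟩ := a₁.add_eq_zero a₂ h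
    rw [h, tt_zero, a₁.tt, a₂.tt, div_neg, zero_sub, neg_neg, sub_self]
    exact ⟨FGb_zero, h5⟩
  obtain ⟨x₃, y₃, l, n, a₃, e₁, e₂, e₃, s₁, s₂, s₃⟩ := a₁.line a₂ h
  obtain ⟨y1, X1, n₁, m₁⟩ := fg_small h0 h1 a₁.eq (hR _ _ a₁)
  obtain ⟨y2, X2, n₂, m₂⟩ := fg_small h0 h1 a₂.eq (hS _ _ a₂)
  have x1 : x₁ ≠ 0 := (fg_basic a₁.eq X1).2.1
  have x2 : x₂ ≠ 0 := (fg_basic a₂.eq X2).2.1
  have hn : n ≠ 0 := by
    rintro rfl
    have x3 : x₃ = 0 := by simpa [x1, x2] using s₃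
    have e : x₁ * x₂ = -2 := by rw [x3] at s₂; linarith
    have h2 := congrArg (padicNorm p) e
    rw [padicNorm.mul, padicNorm.neg] at h2
    nlinarith [FGb_two (p := p)]
  have y3 : -y₃ ≠ 0 := by
    intro h3
    rw [neg_eq_zero.1 h3] at a₃
    rw [a₃.y0, mul_zero] at s₃
    exact pow_ne_zero 2 hn s₃.symm
  obtain ⟨f₁, f₃, fA, fB⟩ := fg_alg hn y1 y2 y3 e₁ e₂ e₃ s₁ s₂ s₃
  obtain ⟨g₁, g₂, g₃⟩ := FGb_core h0 h1 n₁ n₂ m₁ m₂ f₁ f₃ fA fB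
  refine ⟨FGb_V a₃ (fg_conv h0 h1 a₃.neg.eq y3 g₂ g₃), ?_⟩
  rw [a₁.tt, a₂.tt, a₃.tt, ← padicNorm.neg]
  rw [div_neg] at g₁
  rwa [show -(x₃ / y₃ - x₁ / y₁ - x₂ / y₂) = x₁ / y₁ + x₂ / y₂ + -(x₃ / y₃) by ring]

theorem fg_zsmul (h0 : 0 < ρ) (h1 : ρ < 1) {R : G} (hR : V p ρ R) (k : ℤ) :
    V p ρ (k • R) ∧ padicNorm p (tt (k • R) - k * tt R) ≤ ρ ^ 5 := by
  induction k using Int.induction_on with
  | zero =>
    rw [zero_zsmul, tt_zero, Int.cast_zero, zero_mul, sub_zero, padicNorm.zero]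
    exact ⟨FGb_zero, by positivity⟩
  | succ i ih =>
    obtain ⟨a, b⟩ := fg_add h0 h1 ih.1 hR
    rw [add_zsmul, one_zsmul]
    refine ⟨a, le_of_eq_of_le (congrArg _ ?_) (FGb_add b ih.2)⟩
    push_cast
    ring
  | pred i ih =>
    obtain ⟨a, b⟩ := fg_add h0 h1 ih.1 (V_neg hR)
    rw [tt_neg] at b
    rw [sub_smul, one_smul, sub_eq_add_neg (_ • R)]
    refine ⟨a, le_of_eq_of_le (congrArg _ ?_) (FGb_add b ih.2)⟩
    push_cast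
    ring

end Vale.Agent.P027
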