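import Vale.Agent.P027.FGb
import Vale.Agent.P027.Loc

/-! P027 Glob: global consequences of the formal group.
For a prime p dividing d = x.den: `norm_den` gives N x * N d = 1, 0 < N d < 1, so N x > 1; rho = N (x/y) has
rho^2 = N d (`fg_basic`), 0 < rho < 1.  By `loc_den`, Dv d R says V p rho R for all such p (`glob_rho`).
`glob_comb`: `fg_zsmul`, `fg_add`, `loc_den`.
`glob_cong`: by `loc_num` fix p; V p rho Q, `fg_zsmul` gives V p rho (k Q), so y' /= 0 (`fg_small`), s = (x'/y')/(x/y),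
k - s = -(tt (kQ) - k tt Q)/(x/y) has norm <= rho^5/rho = rho^4 <= rho^2 = N d.
`egg_ht`: x <= 0 and y^2 = x (x^2-2) >= 0 give x^2 <= 2 or x = 0, so -2 <= x <= 0; (x+1).den = x.den
(Rat.add_intCast_den or Rat.add_ofNat_den ...), |x+1| <= 1 gives |num (x+1)| <= den; |num x| <= 2 den
(cast Rat.num_div_den / Rat.mul_den_eq_num).
`egg_sign`: S + S = 0 gives x = -1 (`At.uniq`); otherwise S = (a, b) with b /= 0 (b = 0 gives S = T), `At.dbl` gives
x2 = ((a^2+2)/(2b))^2 > 0, and `At.line` for P and S+S gives (-1) x2 x = n^2 >= 0. -/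

namespace Vale.Agent.P027

theorem glob_rho {Q : G} {x y : ℚ} (hQ : At Q x y) {p : ℕ} (hp : p.Prime) (h : p ∣ x.den) :
    0 < padicNorm p (x / y) ∧ padicNorm p (x / y) < 1 ∧
      padicNorm p (x / y) ^ 2 = padicNorm p x.den ∧ x ≠ 0 ∧ y ≠ 0 := by
  have := Fact.mk hp
  obtain ⟨a, b, c⟩ := norm_den hp h
  have hx : 1 < padicNorm p x := by
    by_contra hn
    have h1 := not_lt.1 hn
    nlinarith
  obtain ⟨hy, hx0, e1, -, -⟩ := fg_basic hQ.eq hx
  have e2 : padicNorm p (x / y) ^ 2 = padicNorm p x.den := by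
    apply mul_right_cancel₀ (ne_of_gt (lt_trans one_pos hx))
    rw [e1, mul_comm, a]
  have n0 : 0 ≤ padicNorm p (x / y) := padicNorm.nonneg _
  refine ⟨lt_of_le_of_ne n0 fun h0 => ?_, ?_, e2, hx0, hy⟩
  · rw [← h0] at e2
    nlinarith
  · by_contra hn
    have h1 := not_lt.1 hn
    nlinarith

theorem glob_V {Q : G} {x y : ℚ} (hQ : At Q x y) {p : ℕ} (hp : p.Prime) (h : p ∣ x.den) {R : G}
    (hR : Dv x.den R) : V p (padicNorm p (x / y)) R := by
  intro x' y' h'
  rw [(glob_rho hQ hp h).2.2.1]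
  exact (loc_den x.den_nz x').1 (hR x' y' h') p hp h

theorem glob_comb {Q : G} {x y : ℚ} (hQ : At Q x y) {R S : G} (hR : Dv x.den R)
    (hS : Dv x.den S) (i j : ℤ) : Dv x.den (i • R + j • S) := by
  intro x' y' h'
  refine (loc_den x.den_nz x').2 fun p hp h => ?_
  have := Fact.mk hp
  obtain ⟨r0, r1, r2, -, -⟩ := glob_rho hQ hp h
  have h1 := (fg_add r0 r1 (fg_zsmul r0 r1 (glob_V hQ hp h hR) i).1
    (fg_zsmul r0 r1 (glob_V hQ hp h hS) j).1).1 x' y' h'
  rwa [r2] at h1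

theorem glob_cong {Q : G} {x y x' y' s : ℚ} (hQ : At Q x y) (k : ℤ) (h' : At (k • Q) x' y')
    (hs : s * y' * x = x' * y) : x.den ∣ ((k : ℚ) - s).num.natAbs := by
  refine (loc_num x.den_nz _).2 fun p hp h => ?_
  have := Fact.mk hp
  obtain ⟨r0, r1, r2, hx, hy⟩ := glob_rho hQ hp h
  have hD : Dv x.den Q := fun a b hab => by rw [(hQ.uniq hab).1]
  obtain ⟨v1, v2⟩ := fg_zsmul r0 r1 (glob_V hQ hp h hD) k
  rw [h'.tt, hQ.tt] at v2
  have hy' : y' ≠ 0 := (fg_small r0 r1 h'.eq (v1 x' y' h')).1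
  have e0 : s * (x / y) = x' / y' := by
    field_simp
    linear_combination hs
  have e1 : ((k : ℚ) - s) * (x / y) = -(x' / y' - k * (x / y)) := by
    rw [← e0]
    ring
  have e2 := congrArg (padicNorm p) e1
  rw [padicNorm.mul, padicNorm.neg] at e2
  rw [← r2]
  set ρ := padicNorm p (x / y)
  have e3 : padicNorm p ((k : ℚ) - s) ≤ ρ ^ 4 := by
    refine le_of_mul_le_mul_right ?_ r0
    rw [e2, ← pow_succ]
    exact v2
  exact e3.trans (pow_le_pow_of_le_one r0.le r1.le (by norm_num))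

theorem glob_num_le {q : ℚ} {c : ℕ} (h : |q| ≤ c) : q.num.natAbs ≤ c * q.den := by
  have h1 : ((q.num.natAbs : ℕ) : ℚ) = |q| * q.den := by
    rw [Nat.cast_natAbs, Int.cast_abs, ← Rat.mul_den_eq_num, abs_mul, Nat.abs_cast]
  have h2 : ((q.num.natAbs : ℕ) : ℚ) ≤ c * q.den := by
    rw [h1]
    exact mul_le_mul_of_nonneg_right h (Nat.cast_nonneg _)
  exact_mod_cast h2

theorem egg_ht {x y : ℚ} (e : y ^ 2 = x ^ 3 - 2 * x) (hx : x ≤ 0) :
    Ht (x + 1) = x.den ∧ Ht x ≤ 2 * x.den := by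
  have h1 : -2 ≤ x := by
    by_contra hn
    have h2 : x < -2 := not_le.1 hn
    have h3 : 0 < (-x) * (x ^ 2 - 2) := mul_pos (by linarith) (by nlinarith)
    nlinarith [sq_nonneg y]
  have h2 : (x + 1).den = x.den := by simp
  have h3 : (x + 1).num.natAbs ≤ 1 * (x + 1).den :=
    glob_num_le (abs_le.2 ⟨by push_cast; linarith, by push_cast; linarith⟩)
  have h4 : x.num.natAbs ≤ 2 * x.den :=
    glob_num_le (abs_le.2 ⟨by push_cast; linarith, by push_cast; linarith⟩)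
  unfold Ht
  rw [h2] at h3 ⊢
  constructor
  · exact max_eq_right (by omega)
  · exact max_le h4 (by omega)

theorem egg_sign (S : G) {x y : ℚ} (h : At (P + (S + S)) x y) : x ≤ 0 := by
  by_cases hS : S + S = 0
  · rw [hS, add_zero] at h
    rw [← (at_P.uniq h).1]
    norm_num
  rcases at_or S with h0 | ⟨a, b, hab⟩
  · exact absurd (by rw [h0, add_zero]) hS
  have hb : b ≠ 0 := by
    rintro rfl
    have ha := hab.y0
    subst ha
    exact hS (by rw [hab.ext at_T]; exact T_add_T)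
  obtain ⟨y₂, h2⟩ := hab.dbl hb
  obtain ⟨x₃, y₃, l, n, h3, -, -, -, -, -, e⟩ := at_P.line h2 h.ne
  rw [← (h.uniq h3).1] at e
  have hpos : 0 < ((a ^ 2 + 2) / (2 * b)) ^ 2 := by positivity
  by_contra hn
  have h4 := mul_pos hpos (not_le.1 hn)
  nlinarith [sq_nonneg n]

end Vale.Agent.P027
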