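import Vale.Agent.P027.HDa
import Vale.Agent.P027.Gad
import Vale.Agent.P027.Sound
import Vale.Agent.P027.Comp

/-! P027 HDb: the gadgets and the formula are HD; the integers are HD (helper14 fills this file). -/

namespace Vale.Agent.P027

variable {ι : Type}

theorem hdb_nm : HD fun a : Bool → ℚ => Ht (a true) ∣ (a false).num.natAbs ^ 2 := by
  refine HD.of_iff ?_ fun a => nm_iff _ _
  refine HD.or (HD.eq (IsP.proj _) IsP.zero) (HD.ex (HD.ex ?_))
  beta_reduce
  refine (HD.eq ?_ ?_).and ((HD.le ?_ ?_).and ((HD.ht ?_ ?_).and ((HD.le ?_ ?_).and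
    (HD.ht ?_ ?_)))) <;>
    repeat' first
      | exact IsP.proj _ | exact IsP.one | exact IsP.two | exact IsP.zero | exact IsP.nat _
      | apply IsP.add | apply IsP.sub | apply IsP.mul | apply IsP.pow

theorem HD.nm {F G : (ι → ℚ) → ℚ} (hF : IsP F) (hG : IsP G) :
    HD fun a => Ht (F a) ∣ (G a).num.natAbs ^ 2 := by
  exact hdb_nm.comp (φ := fun b : Bool => if b then F else G) (by rintro (_ | _) <;> assumption)

theorem hdb_cp : HD fun a : Bool → ℚ => Cp (a true) (a false) := by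
  refine HD.ex (HD.ex ?_)
  beta_reduce
  refine (HD.le ?_ ?_).and ((HD.ht ?_ ?_).and ((HD.eq ?_ ?_).and (HD.nm ?_ ?_))) <;>
    repeat' first
      | exact IsP.proj _ | exact IsP.one | exact IsP.two | exact IsP.zero | exact IsP.nat _
      | apply IsP.add | apply IsP.sub | apply IsP.mul | apply IsP.pow

theorem hdb_cp' {F G : (ι → ℚ) → ℚ} (hF : IsP F) (hG : IsP G) : HD fun a => Cp (F a) (G a) :=
  hdb_cp.comp (φ := fun b : Bool => if b then F else G) (by rintro (_ | _) <;> assumption)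

theorem hdb_rq : HD fun a : Fin 3 → ℚ => Rq (a 0) (a 1) (a 2) := by
  refine HD.ex (HD.ex (HD.ex ?_))
  beta_reduce
  refine (HD.ht ?_ ?_).and ((HD.ht ?_ ?_).and ((hdb_cp' ?_ ?_).and (hdb_cp' ?_ ?_))) <;>
    repeat' first
      | exact IsP.proj _ | exact IsP.one | exact IsP.two | exact IsP.zero | exact IsP.nat _
      | apply IsP.add | apply IsP.sub | apply IsP.mul | apply IsP.pow

theorem HD.rq {F G K : (ι → ℚ) → ℚ} (hF : IsP F) (hG : IsP G) (hK : IsP K) :
    HD fun a => Rq (F a) (G a) (K a) := by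
  exact hdb_rq.comp (φ := ![F, G, K]) fun i => by fin_cases i <;> assumption

theorem hdb_psi (N : ℕ) : HD fun a : Unit → ℚ => Psi Rq N (a ()) := by
  refine HD.ex (HD.ex (HD.ex (HD.ex (HD.ex (HD.ex (HD.ex (HD.ex ?_)))))))
  beta_reduce
  refine (HD.eq ?_ ?_).and ((HD.eq ?_ ?_).and ((HD.le ?_ ?_).and ((HD.rq ?_ ?_ ?_).and
    ((HD.rq ?_ ?_ ?_).and ((HD.eq ?_ ?_).and ((HD.nm ?_ ?_).and ((HD.eq ?_ ?_).and
    ((HD.nm ?_ ?_).and ((HD.eq ?_ ?_).and ((HD.eq ?_ ?_).and ((HD.rq ?_ ?_ ?_).and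
    (HD.rq ?_ ?_ ?_)))))))))))) <;>
    repeat' first
      | exact IsP.proj _ | exact IsP.one | exact IsP.two | exact IsP.zero | exact IsP.nat _
      | apply IsP.add | apply IsP.sub | apply IsP.mul | apply IsP.pow

theorem HD.psi (N : ℕ) {F : (ι → ℚ) → ℚ} (hF : IsP F) : HD fun a => Psi Rq N (F a) := by
  exact (hdb_psi N).comp (φ := fun _ : Unit => F) fun _ => hF

theorem HD.isInt {F : (ι → ℚ) → ℚ} (hF : IsP F) : HD fun a => ∃ z : ℤ, F a = z := by
  obtain ⟨N, hN⟩ := sound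
  refine ((HD.eq hF IsP.zero).or (HD.psi N hF)).of_iff fun a => ⟨?_, ?_⟩
  · rintro ⟨z, hz⟩
    by_cases h0 : z = 0
    · exact Or.inl (by simp [hz, h0])
    · exact Or.inr (hz ▸ Psi_mono (fun _ _ _ => Rq_of) (P027.comp N z h0))
  · rintro (h | h)
    · exact ⟨0, by simp [h]⟩
    · exact hN N le_rfl _ (Psi_mono (fun _ _ _ => Rq_le) h)

end Vale.Agent.P027
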