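import Vale.Agent.P027.Defs

/-! P027 Par: approximate parallelogram law and Northcott property for `hh`.
Plan. `par_key`: b2 = 0, b4 = -4, b6 = 0, b8 = -4, so addSubMap sends (s,t,u) to
(s^2+4su+4u^2, 2ts-4tu, t^2-4su) (unfold WeierstrassCurve.addSubMap, b2.., W; funext, fin_cases, simp).
Cases by `at_or`: R = 0 or S = 0 (c = 1; sym2x_neg_right, sym2x_comm); x1 /= x2: `At.chord` for R + S and
R + (-S) (`At.neg`) with slopes (y1 -+ y2)/(x1-x2), c = 1/(x1-x2)^2, field_simp + linear_combination with the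
two curve equations (product of the two x is (x1x2+2)^2/(x1-x2)^2, sum is 2(x1+x2)(x1x2-2)/(x1-x2)^2);
x1 = x2: `At.pm` gives S = R or S = -R, one of R+S, R-S is 0 and the other is R+R; y = 0: `At.y0`, R = T,
`T_add_T`, c = 1/4; y /= 0: `At.dbl`, c = 1/(4y^2).
`par`: Height.logHeight_smul_eq_logHeight, WeierstrassCurve.abs_logHeight_addSubMap_sub_two_mul_logHeight_le,
Height.abs_logHeight_sym2_sub_le (xRep_ne_zero; xRep R = ![xRep R 0, xRep R 1]).
`hh_north`: points with hh <= B lie in {0} and the image of pairs (x, y); x ranges over the finite set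
logHeight1 x <= B (Northcott instance for logHeight1 on Q, `At.hh`, Rat.logHeight1_eq_log_max), and
for each x there are at most two points (`At.pm`). -/

namespace Vale.Agent.P027

open WeierstrassCurve

theorem Par_map (s t u : ℚ) : (fun i => MvPolynomial.eval ![s, t, u] (W.addSubMap i)) =
    ![s ^ 2 + 4 * s * u + 4 * u ^ 2, 2 * t * s - 4 * t * u, t ^ 2 - 4 * s * u] := by
  funext i
  fin_cases i <;>
    simp [WeierstrassCurve.addSubMap, WeierstrassCurve.b₂, WeierstrassCurve.b₄,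
      WeierstrassCurve.b₆, WeierstrassCurve.b₈, W] <;> ring

theorem Par_ss {R S : G} {x y x' y' : ℚ} (h : At R x y) (h' : At S x' y') :
    R.sym2x S = ![x * x', x + x', 1] := by
  obtain ⟨h, rfl⟩ := h
  obtain ⟨h', rfl⟩ := h'
  exact Affine.Point.sym2x_some_some h h'

theorem Par_s0 {R : G} {x y : ℚ} (h : At R x y) : R.sym2x 0 = ![x, 1, 0] := by
  obtain ⟨h, rfl⟩ := h
  exact Affine.Point.sym2x_some_zero h

theorem Par_vec {a b c a' b' c' k : ℚ} (h1 : a = k * a') (h2 : b = k * b') (h3 : c = k * c') :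
    ![a, b, c] = k • ![a', b', c'] := by
  funext i
  fin_cases i
  · exact h1
  · exact h2
  · exact h3

theorem Par_dbl {R : G} {x y : ℚ} (h : At R x y) : ∃ c : ℚ, c ≠ 0 ∧ (R + R).sym2x 0 =
    c • fun i => MvPolynomial.eval (R.sym2x R) (W.addSubMap i) := by
  rw [Par_ss h h, Par_map]
  by_cases hy : y = 0
  · subst hy
    obtain rfl := h.y0
    rw [h.ext at_T, T_add_T, Affine.Point.sym2x_zero_zero]
    exact ⟨1 / 4, by norm_num, Par_vec (by norm_num) (by norm_num) (by norm_num)⟩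
  · obtain ⟨y₃, h₃⟩ := h.dbl hy
    have e := h.eq
    rw [Par_s0 h₃]
    refine ⟨1 / (4 * y ^ 2), by positivity, Par_vec ?_ ?_ (by ring)⟩
    · field_simp
      ring
    · rw [one_div_mul_eq_div, eq_div_iff (by positivity)]
      linear_combination 4 * e

theorem Par_chord {R S : G} {x y x' y' k : ℚ} (h : At R x y) (h' : At S x' y') (hx : x ≠ x')
    (hk : k * (x - x') ^ 2 = 1) :
    ∃ y₃, At (R + S) (k * ((x + x') * (x * x' - 2) - 2 * y * y')) y₃ := by
  have hl : (y - y') / (x - x') * (x - x') = y - y' := div_mul_cancel₀ _ (sub_ne_zero.2 hx)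
  obtain ⟨y₃, h₃⟩ := h.chord h' hx hl
  generalize (y - y') / (x - x') = l at hl h₃
  have e : l ^ 2 - x - x' = k * ((x + x') * (x * x' - 2) - 2 * y * y') := by
    linear_combination (-(l ^ 2 - x - x')) * hk + k * (l * (x - x') + y - y') * hl +
      k * (h.eq + h'.eq)
  exact ⟨y₃, e ▸ h₃⟩

theorem Par_sym : ∃ C : ℝ, ∀ R S : G, |Height.logHeight (R.sym2x S) - (hh R + hh S)| ≤ C := by
  obtain ⟨C, hC⟩ := Height.abs_logHeight_sym2_sub_le ℚ
  have e : ∀ R : G, ![R.xRep 0, R.xRep 1] = R.xRep := fun R => by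
    funext i
    fin_cases i <;> rfl
  refine ⟨C, fun R S => ?_⟩
  have h := hC ((e R).trans_ne R.xRep_ne_zero) ((e S).trans_ne S.xRep_ne_zero)
  rw [e R, e S] at h
  exact h

theorem par_key (R S : G) : ∃ c : ℚ, c ≠ 0 ∧ (R + S).sym2x (R - S) =
    c • fun i => MvPolynomial.eval (R.sym2x S) (W.addSubMap i) := by
  rcases at_or R with rfl | ⟨x, y, h⟩
  · rw [zero_add, zero_sub, Affine.Point.sym2x_neg_right, Affine.Point.sym2x_comm 0 S]
    rcases at_or S with rfl | ⟨x', y', h'⟩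
    · rw [Affine.Point.sym2x_zero_zero, Par_map]
      exact ⟨1, one_ne_zero, Par_vec (by norm_num) (by norm_num) (by norm_num)⟩
    · rw [Par_ss h' h', Par_s0 h', Par_map]
      exact ⟨1, one_ne_zero, Par_vec (by ring) (by ring) (by ring)⟩
  rcases at_or S with rfl | ⟨x', y', h'⟩
  · rw [add_zero, sub_zero, Par_ss h h, Par_s0 h, Par_map]
    exact ⟨1, one_ne_zero, Par_vec (by ring) (by ring) (by ring)⟩
  by_cases hx : x = x'
  · subst hx
    rcases h.pm h' with rfl | rfl
    · rw [sub_self]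
      exact Par_dbl h
    · rw [add_neg_cancel, sub_neg_eq_add, Affine.Point.sym2x_neg_right,
        Affine.Point.sym2x_comm 0]
      exact Par_dbl h
  · have hd : (x - x') ^ 2 ≠ 0 := pow_ne_zero 2 (sub_ne_zero.2 hx)
    have hk : ((x - x') ^ 2)⁻¹ * (x - x') ^ 2 = 1 := inv_mul_cancel₀ hd
    obtain ⟨y₃, h₃⟩ := Par_chord h h' hx hk
    obtain ⟨y₄, h₄⟩ := Par_chord h h'.neg hx hk
    rw [sub_eq_add_neg R S, Par_ss h₃ h₄, Par_ss h h', Par_map]
    refine ⟨_, inv_ne_zero hd, ?_⟩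
    generalize ((x - x') ^ 2)⁻¹ = k at hk ⊢
    refine Par_vec ?_ (by ring) (by linear_combination -hk)
    linear_combination k * (x * x' + 2) ^ 2 * hk - 4 * k ^ 2 * y' ^ 2 * h.eq -
      4 * k ^ 2 * (x ^ 3 - 2 * x) * h'.eq

theorem par : ∃ C : ℝ, ∀ R S : G, |hh (R + S) + hh (R - S) - 2 * (hh R + hh S)| ≤ C := by
  obtain ⟨C₁, h₁⟩ := W.abs_logHeight_addSubMap_sub_two_mul_logHeight_le
  obtain ⟨C₂, h₂⟩ := Par_sym
  refine ⟨C₁ + 3 * C₂, fun R S => ?_⟩
  obtain ⟨c, hc, e⟩ := par_key R S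
  have a := abs_le.1 (h₂ (R + S) (R - S))
  have b := abs_le.1 (h₂ R S)
  have d := abs_le.1 (h₁ (R.sym2x S))
  rw [e, Height.logHeight_smul_eq_logHeight _ hc] at a
  rw [abs_le]
  constructor <;> linarith [a.1, a.2, b.1, b.2, d.1, d.2]

theorem hh_nonneg (R : G) : 0 ≤ hh R := Height.logHeight_nonneg _

theorem hh_north : Northcott hh := by
  refine ⟨fun B => ?_⟩
  have h1 := Northcott.finite_le (h := Height.logHeight₁ (K := ℚ)) B
  have h2 : ∀ x : ℚ, {R : G | ∃ y, At R x y}.Finite := fun x => by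
    by_cases h : ∃ (R : G) (y : ℚ), At R x y
    · obtain ⟨R, y, h⟩ := h
      refine (Set.toFinite {R, -R}).subset ?_
      rintro S ⟨y', h'⟩
      exact h.pm h'
    · exact Set.finite_empty.subset fun R hR => h ⟨R, hR⟩
  refine ((h1.biUnion fun x _ => h2 x).insert 0).subset fun R hR => ?_
  rcases at_or R with rfl | ⟨x, y, h⟩
  · exact Set.mem_insert _ _
  · refine Set.mem_insert_of_mem _ (Set.mem_biUnion (x := x) ?_ ⟨y, h⟩)
    have e : Height.logHeight₁ x = hh R := by
      rw [h.hh, Rat.logHeight₁_eq_log_max]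
      rfl
    exact e.trans_le hR

end Vale.Agent.P027
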