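import Vale.Agent.P027.Par
import Vale.Agent.P027.Desc

/-! P027 Rank: the group has rank at most one.
`rank_abs`: AddCommGroup.equiv_free_prod_directSum_zmod gives e : A = (Fin n ->0 Z) x (finite group).  The first
component of e t vanishes (t + t = 0, torsion free).  If n >= 2, the map A -> ZMod 2 x ZMod 2 given by the
coordinates 0 and 1 mod 2 is onto, kills S + S and t, so its image lies in {0, image of a}: the three elements
(1,0), (0,1), (1,1) would all be equal.  n = 0: g = 0; n = 1: g = coordinate 0; if g R = 0 then e R = (0, f) has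
finite order (finite group; isOfFinAddOrder_of_finite, AddEquiv / injective hom transport).
`fg_G`: AddCommGroup.fg_of_descent' with h = hh (`par`, `hh_nonneg`, `hh_north`); finite index of the range of
nsmulAddMonoidHom 2: the quotient is covered by the classes of 0, T, P, P+T (`desc`), use
AddSubgroup.finiteIndex_of_finite_quotient and Finite.of_surjective from Fin 4 or Set.Finite.subset. -/

namespace Vale.Agent.P027

theorem Rank_coord {A : Type} [AddCommGroup A] [AddGroup.FG A] :
    ∃ (n : ℕ) (c : Fin n → A →+ ℤ), (∀ R, (∀ i, c i R = 0) → IsOfFinAddOrder R) ∧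
      ∀ v : Fin n →₀ ℤ, ∃ R, ∀ i, c i R = v i := by
  obtain ⟨n, ι, fι, p, hp, k, ⟨e⟩⟩ := AddCommGroup.equiv_free_prod_directSum_zmod A
  haveI : ∀ i, NeZero (p i ^ k i) := fun i => ⟨pow_ne_zero _ (hp i).ne_zero⟩
  haveI hfin : Finite (DirectSum ι fun i => ZMod (p i ^ k i)) :=
    Finite.of_equiv _ (DirectSum.addEquivProd (fun i => ZMod (p i ^ k i))).symm.toEquiv
  refine ⟨n, fun i => (Finsupp.applyAddHom i).comp ((AddMonoidHom.fst _ _).comp e.toAddMonoidHom),
    fun R hR => ?_, fun v => ⟨e.symm (v, 0), fun i => by simp⟩⟩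
  have h1 : (e R).1 = 0 := by
    ext i
    simpa using hR i
  have h2 : IsOfFinAddOrder (e R).2 := isOfFinAddOrder_of_finite _
  have h3 : R = ((e.symm.toAddMonoidHom).comp (AddMonoidHom.inr _ _)) (e R).2 := by
    apply e.injective
    simp only [AddMonoidHom.comp_apply, AddMonoidHom.inr_apply, AddEquiv.coe_toAddMonoidHom,
      AddEquiv.apply_symm_apply]
    exact Prod.ext h1 rfl
  rw [h3]
  exact AddMonoidHom.isOfFinAddOrder _ h2

theorem rank_abs {A : Type} [AddCommGroup A] [AddGroup.FG A] (a t : A) (ht : t + t = 0)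
    (h : ∀ R : A, ∃ S : A, R = S + S ∨ R = S + S + t ∨ R = S + S + a ∨ R = S + S + a + t) :
    ∃ g : A →+ ℤ, ∀ R, g R = 0 → IsOfFinAddOrder R := by
  obtain ⟨n, c, hc, hv⟩ := Rank_coord (A := A)
  have h0 : ∀ i, c i t = 0 := fun i => by
    have := congrArg (c i) ht
    rw [map_add, map_zero] at this
    omega
  have key : ∀ i j : Fin n, i ≠ j → c i a % 2 = 1 ∧ c j a % 2 = 0 := by
    intro i j hij
    obtain ⟨R, hR⟩ := hv (Finsupp.single i 1)
    have e1 : c i R = 1 := by rw [hR]; simp
    have e2 : c j R = 0 := by rw [hR]; simp [hij]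
    have t1 := h0 i
    have t2 := h0 j
    obtain ⟨S, hS⟩ := h R
    rcases hS with hS | hS | hS | hS <;> rw [hS] at e1 e2 <;> simp only [map_add] at e1 e2 <;>
      omega
  have hsub : ∀ i j : Fin n, i = j := by
    intro i j
    by_contra hij
    have a1 := (key i j hij).1
    have a2 := (key j i (Ne.symm hij)).2
    omega
  rcases n with _ | n
  · exact ⟨0, fun R _ => hc R fun i => i.elim0⟩
  · exact ⟨c 0, fun R hR => hc R fun i => by rw [hsub i 0]; exact hR⟩

theorem Rank_index : (nsmulAddMonoidHom (α := G) 2).range.FiniteIndex := by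
  set H : AddSubgroup G := (nsmulAddMonoidHom (α := G) 2).range with hH
  have hm : ∀ S : G, S + S ∈ H := fun S => ⟨S, by simp [two_nsmul]⟩
  have hq : ∀ S u : G, (QuotientAddGroup.mk (S + S + u) : G ⧸ H) = QuotientAddGroup.mk u := by
    intro S u
    rw [QuotientAddGroup.eq_iff_sub_mem]
    simpa using hm S
  haveI : Finite (G ⧸ H) := by
    refine Finite.of_surjective
      (fun i : Fin 4 => (QuotientAddGroup.mk (![0, T, P, P + T] i) : G ⧸ H)) fun q => ?_
    obtain ⟨R, rfl⟩ := QuotientAddGroup.mk_surjective q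
    obtain ⟨S, hS⟩ := desc R
    rcases hS with hS | hS | hS | hS
    · exact ⟨0, by rw [hS, ← add_zero (S + S), hq]; rfl⟩
    · exact ⟨1, by rw [hS, hq]; rfl⟩
    · exact ⟨2, by rw [hS, hq]; rfl⟩
    · exact ⟨3, by rw [hS, add_assoc (S + S), hq]; rfl⟩
  exact AddSubgroup.finiteIndex_of_finite_quotient

theorem fg_G : AddGroup.FG G := by
  obtain ⟨C, hC⟩ := par
  haveI := hh_north
  exact AddCommGroup.fg_of_descent' Rank_index hh_nonneg hC

theorem rank_G : ∃ g : G →+ ℤ, ∀ R, g R = 0 → IsOfFinAddOrder R :=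
  haveI := fg_G
  rank_abs P T T_add_T desc

end Vale.Agent.P027
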