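import Vale.Agent.P027.Defs

/-! P027 Sq: square classes of rationals.
`sq_cls`: n = |num| * den > 0, z = +- n / den^2; n = b^2 * a with a squarefree (Nat.sq_mul_squarefree);
padicValRat p z = v(|num|) - v(den) and v(n) = v(|num|) + v(den) have the same parity, v(n) = 2 v(b) + v(a),
v(a) <= 1 (Nat.Squarefree.factorization_le_one / squarefree_iff_factorization_le_one), so no odd prime divides a;
a = 2^k (Nat.eq_prime_pow_of_unique_prime_dvd), k <= 1.  u = b / den.
`sq_curve`: y^2 = x (x^2 - 2), x^2 - 2 /= 0 (`sq_ne_two`), y /= 0.  For odd p with v = v(x): v > 0 gives v(x^2-2) = 0,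
v < 0 gives v(x^2-2) = 2v (padicValRat.add_eq_of_lt / add_eq_min or padicNorm.add_eq_max_of_ne); so 2 v(y) = v or 3v.
`sq_half`: u /= 0; for odd p with v(z) /= 0, v(z + 2/z) = -|v(z)| = 2 v(u); the negative classes are excluded by z > 0. -/

namespace Vale.Agent.P027

theorem sq_two {p : ℕ} (hp : p.Prime) (h2 : p ≠ 2) : padicValRat p 2 = 0 := by
  have h : ¬ p ∣ 2 := fun h => h2 ((Nat.prime_dvd_prime_iff_eq hp Nat.prime_two).1 h)
  have := padicValRat.of_nat (p := p) (n := 2)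
  rw [padicValNat.eq_zero_of_not_dvd h] at this
  exact_mod_cast this

theorem sq_cls {z : ℚ} (hz : z ≠ 0)
    (h : ∀ p : ℕ, p.Prime → p ≠ 2 → Even (padicValRat p z)) :
    ∃ u : ℚ, z = u ^ 2 ∨ z = -u ^ 2 ∨ z = 2 * u ^ 2 ∨ z = -2 * u ^ 2 := by
  obtain ⟨a, b, hab, hsq⟩ := Nat.sq_mul_squarefree (z.num.natAbs * z.den)
  have hd : (z.den : ℚ) ≠ 0 := by exact_mod_cast z.den_nz
  have ha : a ≠ 0 := hsq.ne_zero
  have ha' : (a : ℚ) ≠ 0 := by exact_mod_cast ha
  have h1 : |z| = a * ((b : ℚ) / z.den) ^ 2 := by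
    have h2 : ((b : ℚ) ^ 2 * a) = |(z.num : ℚ)| * z.den := by
      rw [← Int.cast_abs, ← Nat.cast_natAbs]
      exact_mod_cast hab
    have h3 : |(z.num : ℚ)| = |z| * z.den := by
      rw [← Rat.mul_den_eq_num, abs_mul, Nat.abs_cast]
    rw [h3] at h2
    field_simp
    linarith
  set u : ℚ := (b : ℚ) / z.den
  have hu : u ≠ 0 := by
    intro h0
    rw [h0] at h1
    simp [hz] at h1
  have h4 : ∀ {d : ℕ}, d.Prime → d ∣ a → d = 2 := by
    intro d hd' hda
    by_contra hne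
    have : Fact d.Prime := ⟨hd'⟩
    have h5 : padicValRat d |z| = padicValRat d z := by
      rcases abs_choice z with e | e <;> simp [e]
    have h6 := h d hd' hne
    rw [← h5, h1, padicValRat.mul ha' (pow_ne_zero 2 hu), padicValRat.pow, padicValRat.of_nat] at h6
    have h7 := one_le_padicValNat_of_dvd ha hda
    have h8 := hsq.natFactorization_le_one d
    rw [Nat.factorization_def _ hd'] at h8
    obtain ⟨c, hc⟩ := h6
    omega
  have h9 : a = 1 ∨ a = 2 := by
    have e := Nat.eq_prime_pow_of_unique_prime_dvd ha h4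
    generalize a.primeFactorsList.length = k at e
    rcases k with _ | _ | k
    · exact Or.inl e
    · exact Or.inr e
    · have := hsq 2 ⟨2 ^ k, by rw [e]; ring⟩
      simp at this
  refine ⟨u, ?_⟩
  rcases abs_choice z with e | e <;> rcases h9 with rfl | rfl <;> rw [e] at h1 <;> push_cast at h1
  · exact Or.inl (by linarith)
  · exact Or.inr (Or.inr (Or.inl h1))
  · exact Or.inr (Or.inl (by linarith))
  · exact Or.inr (Or.inr (Or.inr (by linarith)))

theorem sq_val {p : ℕ} [Fact p.Prime] {x c : ℚ} (hx : x ≠ 0) (hc : c ≠ 0)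
    (hv : padicValRat p c = 0) (h0 : x ^ 2 + c ≠ 0) :
    padicValRat p x = 0 ∨ padicValRat p (x ^ 2 + c) = 0 ∨
      padicValRat p (x ^ 2 + c) = 2 * padicValRat p x := by
  have h2 : padicValRat p (x ^ 2) = 2 * padicValRat p x := by
    rw [padicValRat.pow]
    norm_num
  rcases lt_trichotomy (padicValRat p x) 0 with h | h | h
  · rw [padicValRat.add_eq_of_lt h0 (pow_ne_zero 2 hx) hc (by omega)]
    exact Or.inr (Or.inr h2)
  · exact Or.inl h
  · rw [add_comm] at h0 ⊢
    rw [padicValRat.add_eq_of_lt h0 hc (pow_ne_zero 2 hx) (by omega)]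
    exact Or.inr (Or.inl hv)

theorem sq_curve {x y : ℚ} (h : y ^ 2 = x ^ 3 - 2 * x) (h0 : x ≠ 0) :
    ∃ u : ℚ, x = u ^ 2 ∨ x = -u ^ 2 ∨ x = 2 * u ^ 2 ∨ x = -2 * u ^ 2 := by
  refine sq_cls h0 fun p hp h2 => ?_
  have : Fact p.Prime := ⟨hp⟩
  have h1 : x ^ 2 + -2 ≠ 0 := fun e => sq_ne_two x (by linarith)
  have h3 : y ^ 2 = x * (x ^ 2 + -2) := by linarith
  have h4 := congrArg (padicValRat p) h3
  rw [padicValRat.pow, padicValRat.mul h0 h1] at h4
  have h5 := sq_val (p := p) h0 (by norm_num) (by rw [padicValRat.neg, sq_two hp h2]) h1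
  rw [Int.even_iff]
  push_cast at h4
  omega

theorem sq_half {z u : ℚ} (hz : 0 < z) (h : z + 2 / z = 2 * u ^ 2) :
    ∃ c : ℚ, z = c ^ 2 ∨ z = 2 * c ^ 2 := by
  have h1 : z ^ 2 + 2 ≠ 0 := by positivity
  have h3 : z ^ 2 + 2 = z * (2 * u ^ 2) := by
    rw [← h]
    field_simp
  have hu : u ≠ 0 := by
    rintro rfl
    apply h1
    rw [h3]
    ring
  obtain ⟨c, hc⟩ := sq_cls hz.ne' fun p hp h2 => by
    have : Fact p.Prime := ⟨hp⟩
    have h4 := congrArg (padicValRat p) h3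
    rw [padicValRat.mul hz.ne' (by positivity), padicValRat.mul two_ne_zero (pow_ne_zero 2 hu),
      padicValRat.pow, sq_two hp h2] at h4
    have h5 := sq_val (p := p) hz.ne' two_ne_zero (sq_two hp h2) h1
    rw [Int.even_iff]
    push_cast at h4
    omega
  have := sq_nonneg c
  rcases hc with e | e | e | e
  · exact ⟨c, Or.inl e⟩
  · linarith
  · exact ⟨c, Or.inr e⟩
  · linarith

end Vale.Agent.P027
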